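import Mathlib

/-!
Averaging operators (conditional expectations for the uniform measure on a finite type, given a
key function) and a small spectral toolkit.
-/

set_option autoImplicit false

namespace Crest.Agent.R299

open Finset Matrix

attribute [local instance] Classical.propDecidable

variable {X Y : Type*} [Fintype X] [Fintype Y] {K K' : Type*}

/-- The class of `x` for the key `k`. -/
noncomputable def cls (k : X → K) (x : X) : Finset X := univ.filter fun y => k y = k x

lemma mem_cls {k : X → K} {x y : X} : y ∈ cls k x ↔ k y = k x := by simp [cls]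

lemma self_mem_cls (k : X → K) (x : X) : x ∈ cls k x := mem_cls.2 rfl

lemma card_cls_pos (k : X → K) (x : X) : (0 : ℝ) < (cls k x).card := by
  exact_mod_cast Finset.card_pos.2 ⟨x, self_mem_cls k x⟩

lemma cls_eq {k : X → K} {x y : X} (h : k x = k y) : cls k x = cls k y := by
  ext z; simp [mem_cls, h]

/-- Average over the class. -/
noncomputable def avg (k : X → K) : (X → ℝ) →ₗ[ℝ] (X → ℝ) where
  toFun f x := (∑ y ∈ cls k x, f y) / (cls k x).card
  map_add' f g := by ext x; simp [sum_add_distrib, add_div]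
  map_smul' c f := by ext x; simp [← mul_sum, mul_div_assoc]

lemma avg_apply (k : X → K) (f : X → ℝ) (x : X) :
    avg k f x = (∑ y ∈ cls k x, f y) / (cls k x).card := rfl

lemma avg_inv {k : X → K} (f : X → ℝ) {x y : X} (h : k x = k y) : avg k f x = avg k f y := by
  rw [avg_apply, avg_apply, cls_eq h]

lemma avg_congr {k : X → K} {f g : X → ℝ} {x : X} (h : ∀ y, k y = k x → f y = g y) :
    avg k f x = avg k g x := by
  rw [avg_apply, avg_apply, sum_congr rfl fun y hy => h y (mem_cls.1 hy)]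

lemma avg_const_on {k : X → K} {f : X → ℝ} {x : X} {c : ℝ} (h : ∀ y, k y = k x → f y = c) :
    avg k f x = c := by
  rw [avg_apply, sum_congr rfl fun y hy => h y (mem_cls.1 hy), sum_const, nsmul_eq_mul]
  field_simp [(card_cls_pos k x).ne']

lemma avg_of_inv {k : X → K} {f : X → ℝ} (h : ∀ x y, k x = k y → f x = f y) : avg k f = f := by
  ext x; exact avg_const_on fun y hy => h y x hy

lemma avg_avg (k : X → K) (f : X → ℝ) : avg k (avg k f) = avg k f :=
  avg_of_inv fun _ _ h => avg_inv f h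

lemma avg_le {k : X → K} {f : X → ℝ} {x : X} {c : ℝ} (h : ∀ y, k y = k x → f y ≤ c) :
    avg k f x ≤ c := by
  rw [avg_apply, div_le_iff₀ (card_cls_pos k x)]
  calc ∑ y ∈ cls k x, f y ≤ ∑ y ∈ cls k x, c := sum_le_sum fun y hy => h y (mem_cls.1 hy)
    _ = _ := by rw [sum_const, nsmul_eq_mul, mul_comm]

lemma le_avg {k : X → K} {f : X → ℝ} {x : X} {c : ℝ} (h : ∀ y, k y = k x → c ≤ f y) :
    c ≤ avg k f x := by
  rw [avg_apply, le_div_iff₀ (card_cls_pos k x)]
  calc c * _ = ∑ y ∈ cls k x, c := by rw [sum_const, nsmul_eq_mul, mul_comm]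
    _ ≤ ∑ y ∈ cls k x, f y := sum_le_sum fun y hy => h y (mem_cls.1 hy)

lemma avg_key_congr {k : X → K} {k' : X → K'} {x : X} (h : ∀ y, k y = k x ↔ k' y = k' x)
    (f : X → ℝ) : avg k f x = avg k' f x := by
  have : cls k x = cls k' x := by ext y; simp [mem_cls, h]
  rw [avg_apply, avg_apply, this]

lemma avg_symm (k : X → K) (f g : X → ℝ) : f ⬝ᵥ avg k g = avg k f ⬝ᵥ g := by
  simp only [dotProduct, avg_apply, cls, sum_filter, div_eq_mul_inv, sum_mul, mul_sum]
  rw [sum_comm]
  refine sum_congr rfl fun x _ => sum_congr rfl fun y _ => ?_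
  by_cases h : k x = k y
  · simp only [h, if_true]; ring
  · simp [h, Ne.symm h]

/-- If the key `k'` refines `k`, then `avg k' ∘ avg k = avg k`. -/
lemma avg_avg_of_refine {k : X → K} {k' : X → K'} (h : ∀ x y, k' x = k' y → k x = k y)
    (f : X → ℝ) : avg k' (avg k f) = avg k f :=
  avg_of_inv fun x y hxy => avg_inv f (h x y hxy)

lemma eq_of_dot {f g : X → ℝ} (h : ∀ v, v ⬝ᵥ f = v ⬝ᵥ g) : f = g := by
  ext x
  have := h (Pi.single x 1)
  simpa [single_dotProduct] using this

lemma avg_avg_of_refine' {k : X → K} {k' : X → K'} (h : ∀ x y, k' x = k' y → k x = k y)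
    (f : X → ℝ) : avg k (avg k' f) = avg k f := by
  refine eq_of_dot fun v => ?_
  rw [avg_symm, avg_symm, avg_avg_of_refine h, ← avg_symm]

/-- Transport of an average along a map that parametrises the class. -/
lemma avg_transport (ι : Y → X) (k : X → K) (κ : Y → K') (y : Y)
    (hinj : ∀ a b, κ a = κ y → κ b = κ y → ι a = ι b → a = b)
    (hmap : ∀ a, κ a = κ y → k (ι a) = k (ι y))
    (hsurj : ∀ x, k x = k (ι y) → ∃ a, κ a = κ y ∧ ι a = x) (f : X → ℝ) :
    avg k f (ι y) = avg κ (f ∘ ι) y := by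
  have himg : cls k (ι y) = (cls κ y).image ι := by
    ext x
    simp only [mem_cls, mem_image]
    constructor
    · exact hsurj x
    · rintro ⟨a, ha, rfl⟩; exact hmap a ha
  have hI : Set.InjOn ι (cls κ y) := fun a ha b hb h =>
    hinj a b (mem_cls.1 ha) (mem_cls.1 hb) h
  rw [avg_apply, avg_apply, himg, sum_image hI, card_image_of_injOn hI]
  rfl

/-- A bijection mapping classes of `k'` to classes of `k`. -/
lemma avg_comp_equiv (e : X ≃ X) (k : X → K) (k' : X → K') (x : X)
    (h : ∀ y, k (e y) = k (e x) ↔ k' y = k' x) (f : X → ℝ) :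
    avg k f (e x) = avg k' (f ∘ e) x := by
  refine avg_transport e k k' x (fun a b _ _ h => e.injective h) (fun a ha => (h a).2 ha) ?_ f
  intro z hz
  refine ⟨e.symm z, (h _).1 (by simpa using hz), by simp⟩

/-- A key-preserving bijection does not change averages. -/
lemma avg_comp_of_key (e : X ≃ X) (k : X → K) (h : ∀ y, k (e y) = k y) (f : X → ℝ) :
    avg k (f ∘ e) = avg k f := by
  ext x
  rw [← avg_comp_equiv e k k x (fun y => by rw [h, h]) f]
  exact avg_inv f (h x)

/-- Commutation criterion. -/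
lemma avg_comm {k₁ : X → K} {k₂ : X → K'}
    (h : ∀ x x', k₁ x = k₁ x' → ∃ φ : X → X,
      (∀ y, k₂ y = k₂ x → k₂ (φ y) = k₂ x' ∧ k₁ (φ y) = k₁ y) ∧
      ∀ y z, k₂ y = k₂ x → k₂ z = k₂ x → φ y = φ z → y = z) (f : X → ℝ) :
    avg k₁ (avg k₂ f) = avg k₂ (avg k₁ f) := by
  have hcard : ∀ x x', k₁ x = k₁ x' → (cls k₂ x).card ≤ (cls k₂ x').card := by
    intro x x' hx
    obtain ⟨φ, h1, h2⟩ := h x x' hx
    exact card_le_card_of_injOn φ (fun y hy => mem_cls.2 (h1 y (mem_cls.1 hy)).1)
      (fun y hy z hz hyz => h2 y z (mem_cls.1 hy) (mem_cls.1 hz) hyz)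
  have key : ∀ g, avg k₁ (avg k₂ (avg k₁ g)) = avg k₂ (avg k₁ g) := by
    intro g
    refine avg_of_inv fun x x' hx => ?_
    obtain ⟨φ, h1, h2⟩ := h x x' hx
    have hc : (cls k₂ x).card = (cls k₂ x').card :=
      le_antisymm (hcard x x' hx) (hcard x' x hx.symm)
    have hI : Set.InjOn φ (cls k₂ x) := fun y hy z hz hyz =>
      h2 y z (mem_cls.1 hy) (mem_cls.1 hz) hyz
    have himg : (cls k₂ x).image φ = cls k₂ x' := by
      refine eq_of_subset_of_card_le ?_ ?_
      · intro z hz
        obtain ⟨y, hy, rfl⟩ := mem_image.1 hz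
        exact mem_cls.2 (h1 y (mem_cls.1 hy)).1
      · rw [card_image_of_injOn hI, hc]
    rw [avg_apply k₂, avg_apply k₂, ← himg, sum_image hI, card_image_of_injOn hI]
    congr 1
    exact sum_congr rfl fun y hy => avg_inv g (h1 y (mem_cls.1 hy)).2.symm
  refine eq_of_dot fun v => ?_
  calc v ⬝ᵥ avg k₁ (avg k₂ f) = avg k₂ (avg k₁ v) ⬝ᵥ f := by rw [avg_symm, avg_symm]
    _ = avg k₁ (avg k₂ (avg k₁ v)) ⬝ᵥ f := by rw [key]
    _ = v ⬝ᵥ avg k₁ (avg k₂ (avg k₁ f)) := by rw [avg_symm, avg_symm, avg_symm]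
    _ = _ := by rw [key]

lemma dot_self_nonneg (f : X → ℝ) : 0 ≤ f ⬝ᵥ f :=
  sum_nonneg fun x _ => mul_self_nonneg (f x)

lemma dot_avg_self (k : X → K) (f : X → ℝ) : f ⬝ᵥ avg k f = avg k f ⬝ᵥ avg k f := by
  conv_lhs => rw [← avg_avg, avg_symm]

/-- A symmetric operator without negative eigenvalue is positive semidefinite. -/
lemma psd_of_eigen (T : (X → ℝ) →ₗ[ℝ] (X → ℝ)) (hs : ∀ f g, f ⬝ᵥ T g = T f ⬝ᵥ g)
    (he : ∀ (μ : ℝ) (v : X → ℝ), μ < 0 → T v = μ • v → v = 0) (f : X → ℝ) : 0 ≤ f ⬝ᵥ T f := by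
  set M := LinearMap.toMatrix' T with hM
  have hmul : ∀ v, M *ᵥ v = T v := fun v => by rw [hM, LinearMap.toMatrix'_mulVec]
  have hH : M.IsHermitian := by
    ext i j
    have := hs (Pi.single j 1) (Pi.single i 1)
    simpa [hM, single_dotProduct, dotProduct_single, LinearMap.toMatrix'_apply] using this
  have hP : M.PosSemidef := by
    rw [hH.posSemidef_iff_eigenvalues_nonneg]
    intro j
    by_contra hj
    have h1 := hH.mulVec_eigenvectorBasis j
    rw [hmul] at h1
    have h2 := he _ _ (not_le.1 hj) h1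
    have h3 := hH.eigenvectorBasis.orthonormal.ne_zero j
    apply h3
    ext i
    simpa using congrFun h2 i
  have := hP.dotProduct_mulVec_nonneg f
  simpa [hmul] using this

/-- A symmetric operator without eigenvalue in `(0, c)` satisfies `T² ≥ c T`. -/
lemma sq_ge_of_eigen (T : (X → ℝ) →ₗ[ℝ] (X → ℝ)) (hs : ∀ f g, f ⬝ᵥ T g = T f ⬝ᵥ g) (c : ℝ)
    (hc : 0 < c)
    (he : ∀ (μ : ℝ) (v : X → ℝ), 0 < μ → μ < c → T v = μ • v → v = 0) (f : X → ℝ) :
    c * (f ⬝ᵥ T f) ≤ T f ⬝ᵥ T f := by
  have := psd_of_eigen (T ∘ₗ T - c • T) ?_ ?_ f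
  · simp only [LinearMap.sub_apply, LinearMap.comp_apply, LinearMap.smul_apply, dotProduct_sub,
      dotProduct_smul, smul_eq_mul] at this
    rw [hs f (T f)] at this
    linarith
  · intro f g
    simp only [LinearMap.sub_apply, LinearMap.comp_apply, LinearMap.smul_apply, dotProduct_sub,
      dotProduct_smul, smul_eq_mul, sub_dotProduct, smul_dotProduct]
    rw [hs f (T g), hs (T f) g, hs f g]
  · intro μ v hμ hv
    simp only [LinearMap.sub_apply, LinearMap.comp_apply, LinearMap.smul_apply] at hv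
    by_cases hd : c ^ 2 + 4 * μ < 0
    · have h1 : (T v - (c / 2) • v) ⬝ᵥ (T v - (c / 2) • v) = (μ + c ^ 2 / 4) * (v ⬝ᵥ v) := by
        have h2 := congrArg (fun w => v ⬝ᵥ w) hv
        simp only [dotProduct_sub, dotProduct_smul, smul_eq_mul] at h2
        rw [hs v (T v)] at h2
        simp only [dotProduct_sub, dotProduct_smul, smul_eq_mul, sub_dotProduct, smul_dotProduct]
        rw [dotProduct_comm (T v) v]
        linarith
      have h3 := dot_self_nonneg (T v - (c / 2) • v)
      have h4 := dot_self_nonneg v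
      have h5 : v ⬝ᵥ v = 0 := by nlinarith
      exact dotProduct_self_eq_zero.1 h5
    · push Not at hd
      set s := Real.sqrt (c ^ 2 + 4 * μ) with hsdef
      have hs2 : s ^ 2 = c ^ 2 + 4 * μ := Real.sq_sqrt hd
      have hs0 : 0 ≤ s := Real.sqrt_nonneg _
      have hsc : s < c := by nlinarith
      have hw : T (T v - ((c - s) / 2) • v) = ((c + s) / 2) • (T v - ((c - s) / 2) • v) := by
        have : T (T v) = c • T v + μ • v := by rw [← hv]; abel
        rw [map_sub, map_smul, this]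
        ext x
        simp only [Pi.add_apply, Pi.sub_apply, Pi.smul_apply, smul_eq_mul]
        have : μ = (s ^ 2 - c ^ 2) / 4 := by linarith
        rw [this]; ring
      have hw0 := he _ _ (by linarith) (by linarith) hw
      exact he ((c - s) / 2) v (by linarith) (by linarith) (sub_eq_zero.1 hw0)

end Crest.Agent.R299
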