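import Crest.Agent.R299.TGraph

/-!
Connectivity of the switch graph, the Bochner-type inequality for the pair heat-bath operator and
the resulting Poincaré inequality for switches.
-/

set_option autoImplicit false
set_option linter.unusedSectionVars false
set_option linter.unusedVariables false

namespace Crest.Agent.R299

open Finset Matrix

attribute [local instance] Classical.propDecidable

variable {V : Type*} [Fintype V] [DecidableEq V]

lemma conn_step (U : Finset V) {v w z : V} (hv : v ∈ U) (hw : w ∈ U) (hz : z ∈ U) (G G' : Gr V)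
    (h1 : G.adj v w = true) (h2 : G'.adj v w = false) (h3 : G.adj v z = false)
    (h4 : G'.adj v z = true) (hd : ∑ j ∈ U, bz (G.adj w j) ≤ ∑ j ∈ U, bz (G.adj z j)) :
    ∃ G₁ : Gr V, w ≠ z ∧ pkey w z G₁ = pkey w z G ∧ (∀ i j, i ∉ U → G₁.adj i j = G.adj i j) ∧
      (univ.filter fun j => G₁.adj v j ≠ G'.adj v j).card <
        (univ.filter fun j => G.adj v j ≠ G'.adj v j).card := by
  have hwz : w ≠ z := fun h => by rw [h, h3] at h1; exact Bool.false_ne_true h1
  have hwv : w ≠ v := fun h => by rw [h, G.irr] at h1; exact Bool.false_ne_true h1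
  have hzv : z ≠ v := fun h => by rw [h, G'.irr] at h4; exact Bool.false_ne_true h4
  obtain ⟨t, htU, htw, htz, ht1, ht2⟩ : ∃ t ∈ U, t ≠ w ∧ t ≠ z ∧ G.adj z t = true ∧
      G.adj w t = false := by
    by_contra hcon
    push Not at hcon
    have hsub : ({w, z} : Finset V) ⊆ U := by
      intro a ha; simp only [mem_insert, mem_singleton] at ha; rcases ha with rfl | rfl <;> assumption
    rw [← sum_sdiff hsub, ← sum_sdiff hsub, sum_pair hwz, sum_pair hwz, G.irr, G.irr,
      G.symm z w] at hd
    have : ∑ j ∈ U \ {w, z}, bz (G.adj z j) < ∑ j ∈ U \ {w, z}, bz (G.adj w j) := by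
      refine sum_lt_sum (fun j hj => ?_) ⟨v, by simp [hv, hwv.symm, hzv.symm], ?_⟩
      · simp only [mem_sdiff, mem_insert, mem_singleton, not_or] at hj
        have := hcon j hj.1 hj.2.1 hj.2.2
        revert this
        cases G.adj z j <;> cases G.adj w j <;> simp
      · rw [G.symm z, G.symm w, h1, h3]; simp
    simp only [bz_false] at hd
    linarith
  have htv : v ≠ t := fun h => by rw [← h, G.symm, h3] at ht1; exact Bool.false_ne_true ht1
  have h0 : Dist w z v t := ⟨hwz, htv, hwv, htw.symm, hzv, htz.symm⟩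
  have hS : Sw w z v t G := by
    refine ⟨h0, ?_⟩
    rw [G.symm w v, G.symm z v, h1, h3, ht1, ht2]; simp
  have hp := pkey_tau w z v t G
  rw [tau_apply, if_pos hS] at hp
  refine ⟨rsw w z v t G, hwz, hp, fun i j hi => rsw_off3 _ (fun h => hi (h ▸ hw))
    (fun h => hi (h ▸ hz)) (fun h => hi (h ▸ hv)) (fun h => hi (h ▸ htU)), ?_⟩
  have e1 : (rsw w z v t G).adj v w = false := by rw [Gr.symm, rsw_ux h0, G.symm, h3]
  have e2 : (rsw w z v t G).adj v z = true := by rw [Gr.symm, rsw_vx h0, G.symm, h1]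
  refine card_lt_card ⟨fun j hj => ?_, fun h => ?_⟩
  · simp only [mem_filter, mem_univ, true_and] at hj ⊢
    by_cases hjw : j = w
    · rw [hjw, h1, h2]; simp
    by_cases hjz : j = z
    · rw [hjz, h3, h4]; simp
    rwa [rsw_off1 _ hwv.symm hzv.symm hjw hjz] at hj
  · have := @h w (by simp [h1, h2])
    simp [e1, h2] at this

theorem conn (f : Gr V → ℝ) (hf : ∀ u v, u ≠ v → ∀ G G', pkey u v G = pkey u v G' → f G = f G')
    (G G' : Gr V) (h : gdeg G = gdeg G') : f G = f G' := by
  have key : ∀ U : Finset V, ∀ G G' : Gr V, gdeg G = gdeg G' →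
      (∀ i j, i ∉ U → G.adj i j = G'.adj i j) → f G = f G' := by
    intro U
    induction U using Finset.induction_on with
    | empty => intro G G' _ h; rw [Gr.ext' fun i j => h i j (notMem_empty i)]
    | insert v U hvU ih =>
      intro G G'
      induction hn : (univ.filter fun j => G.adj v j ≠ G'.adj v j).card
        using Nat.strong_induction_on generalizing G G' with
      | _ n ihn =>
        intro hd hoff
        by_cases h0 : ∀ j, G.adj v j = G'.adj v j
        · refine ih G G' hd fun i j hi => ?_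
          by_cases hiv : i = v
          · rw [hiv, h0]
          · exact hoff i j (by simp [hiv, hi])
        have hdv := congrFun hd v
        obtain ⟨w, h1, h2⟩ : ∃ w, G.adj v w = true ∧ G'.adj v w = false := by
          by_contra hcon
          push Not at hcon h0
          obtain ⟨j, hj⟩ := h0
          refine absurd hdv (ne_of_lt (sum_lt_sum (fun k _ => ?_) ⟨j, mem_univ _, ?_⟩))
          · have := hcon k; revert this; cases G.adj v k <;> cases G'.adj v k <;> simp
          · have := hcon j; revert this hj; cases G.adj v j <;> cases G'.adj v j <;> simp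
        obtain ⟨z, h3, h4⟩ : ∃ z, G.adj v z = false ∧ G'.adj v z = true := by
          by_contra hcon
          push Not at hcon
          refine absurd hdv.symm (ne_of_lt (sum_lt_sum (fun k _ => ?_) ⟨w, mem_univ _, ?_⟩))
          · have := hcon k; revert this; cases G.adj v k <;> cases G'.adj v k <;> simp
          · simp [h1, h2]
        have hw : w ∈ insert v U := by
          by_contra hw
          have := hoff w v hw
          rw [G.symm, G'.symm, h1, h2] at this
          exact Bool.false_ne_true this.symm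
        have hz : z ∈ insert v U := by
          by_contra hz
          have := hoff z v hz
          rw [G.symm, G'.symm, h3, h4] at this
          exact Bool.false_ne_true this
        have hU : ∀ p, ∑ j ∈ insert v U, bz (G.adj p j) = ∑ j ∈ insert v U, bz (G'.adj p j) := by
          intro p
          have := gdeg_sub G G' p p (insert v U) (fun j hj => by
            rw [G.symm, G'.symm]; exact hoff j p hj)
          rw [hd, sub_self, sum_sub_distrib] at this
          linarith
        rcases le_total (∑ j ∈ insert v U, bz (G.adj w j)) (∑ j ∈ insert v U, bz (G.adj z j))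
          with hle | hle
        · obtain ⟨G₁, hwz, a1, a2, a3⟩ :=
            conn_step (insert v U) (mem_insert_self v U) hw hz G G' h1 h2 h3 h4 hle
          rw [← hf w z hwz _ _ a1]
          exact ihn _ (hn ▸ a3) G₁ G' rfl ((pkey_eq_iff.1 a1).1.trans hd)
            fun i j hi => (a2 i j hi).trans (hoff i j hi)
        · rw [hU, hU] at hle
          obtain ⟨G₁, hwz, a1, a2, a3⟩ :=
            conn_step (insert v U) (mem_insert_self v U) hz hw G' G h4 h3 h2 h1 hle
          rw [← hf z w hwz _ _ a1]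
          simp only [ne_comm (b := G.adj v _)] at a3
          exact ihn _ (hn ▸ a3) G G₁ rfl (hd.trans (pkey_eq_iff.1 a1).1.symm)
            fun i j hi => (hoff i j hi).trans (a2 i j hi).symm
  exact key univ G G' h fun i _ hi => (hi (mem_univ i)).elim

/-- The complement of the pair average (zero on the diagonal). -/
noncomputable def pA (u v : V) : (Gr V → ℝ) →ₗ[ℝ] (Gr V → ℝ) :=
  if u = v then 0 else LinearMap.id - avg (pkey u v)

lemma pA_of_ne {u v : V} (h : u ≠ v) (f : Gr V → ℝ) : pA u v f = f - avg (pkey u v) f := by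
  simp [pA, h]

lemma pA_self (u : V) (f : Gr V → ℝ) : pA u u f = 0 := by simp [pA]

lemma pA_comm (u v : V) (f : Gr V → ℝ) : pA u v f = pA v u f := by
  by_cases h : u = v
  · rw [h]
  · rw [pA_of_ne h, pA_of_ne (Ne.symm h), avg_pkey_comm]

lemma pA_symm (u v : V) (f g : Gr V → ℝ) : f ⬝ᵥ pA u v g = pA u v f ⬝ᵥ g := by
  by_cases h : u = v
  · simp [h, pA_self]
  · simp [pA_of_ne h, avg_symm]

lemma dot_pA (u v : V) (f : Gr V → ℝ) : f ⬝ᵥ pA u v f = pA u v f ⬝ᵥ pA u v f := by
  by_cases h : u = v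
  · simp [h, pA_self]
  · simp only [pA_of_ne h, dotProduct_sub, sub_dotProduct, ← dot_avg_self,
      dotProduct_comm (avg (pkey u v) f) f]
    ring

/-- Dirichlet form of one switch. -/
noncomputable def dir (u v x y : V) (f : Gr V → ℝ) : ℝ := f ⬝ᵥ (f - f ∘ tau u v x y)

/-- The averaged term of one switch. -/
noncomputable def kap (u v x y : V) (f : Gr V → ℝ) : ℝ :=
  ∑ G, if Sw u v x y G then avg (rkey u v x y) (pA u v f) G ^ 2 else 0

lemma kap_nonneg (u v x y : V) (f : Gr V → ℝ) : 0 ≤ kap u v x y f :=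
  sum_nonneg fun G _ => by split_ifs <;> positivity

lemma dir_of_not_dist {u v x y : V} (h : ¬Dist u v x y) (f : Gr V → ℝ) : dir u v x y f = 0 := by
  have : f ∘ tau u v x y = f := by
    ext G; simp [tau_apply, Sw, h]
  simp [dir, this]

lemma kap_of_not_dist {u v x y : V} (h : ¬Dist u v x y) (f : Gr V → ℝ) : kap u v x y f = 0 := by
  simp [kap, Sw, h]

lemma johnson_sum (u v : V) (f : Gr V → ℝ) :
    2 * (pA u v f ⬝ᵥ pA u v f) ≤ ∑ x, ∑ y, ((1 / 2) * dir u v x y f - kap u v x y f) := by
  by_cases huv : u = v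
  · rw [huv, pA_self]
    have : ∀ x y, ¬Dist v v x y := fun x y h => h.uv rfl
    simp [dir_of_not_dist (this _ _), kap_of_not_dist (this _ _)]
  have h := johnson_graph huv f
  rw [gZ_apply, ← pA_of_ne huv] at h
  simp only [dotProduct_sum, dot_gterm] at h
  refine h.trans (le_of_eq (sum_congr rfl fun x _ => sum_congr rfl fun y _ => ?_))
  simp only [kap, sq]
  congr 2
  have h1 : avg (pkey u v) f ∘ tau u v x y = avg (pkey u v) f := by
    ext G; exact avg_inv f (pkey_tau u v x y G)
  have h2 : pA u v f - pA u v f ∘ tau u v x y = f - f ∘ tau u v x y := by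
    rw [pA_of_ne huv]
    ext G
    have := congrFun h1 G
    simp only [Function.comp_apply, Pi.sub_apply] at this ⊢
    linarith
  rw [h2, pA_of_ne huv, sub_dotProduct, ← avg_symm, map_sub,
    avg_comp_of_key _ _ (pkey_tau u v x y), sub_self, dotProduct_zero, sub_zero, dir]

lemma sum4_swap (F : V → V → V → V → ℝ) :
    ∑ u, ∑ v, ∑ x, ∑ y, F u v x y = ∑ u, ∑ v, ∑ x, ∑ y, F x y u v := by
  calc ∑ u, ∑ v, ∑ x, ∑ y, F u v x y = ∑ p : V × V, ∑ q : V × V, F p.1 p.2 q.1 q.2 := by
        simp only [Fintype.sum_prod_type]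
    _ = ∑ q : V × V, ∑ p : V × V, F p.1 p.2 q.1 q.2 := sum_comm
    _ = _ := by simp only [Fintype.sum_prod_type]

lemma disjoint_nonneg (f : Gr V → ℝ) :
    0 ≤ ∑ u, ∑ v, ∑ x, ∑ y, if Dist u v x y then pA u v f ⬝ᵥ pA x y f else 0 := by
  have h1 : ∑ u, ∑ v, ∑ x, ∑ y, ((1 / 2) * dir u v x y f - (1 / 2) * kap u v x y f -
      (1 / 2) * kap x y u v f) ≤
      ∑ u, ∑ v, ∑ x, ∑ y, if Dist u v x y then pA u v f ⬝ᵥ pA x y f else 0 := by
    refine sum_le_sum fun u _ => sum_le_sum fun v _ => sum_le_sum fun x _ =>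
      sum_le_sum fun y _ => ?_
    split_ifs with h
    · have := pair_graph h f
      rw [← pA_of_ne h.uv, ← pA_of_ne h.xy] at this
      exact this
    · rw [dir_of_not_dist h, kap_of_not_dist h, kap_of_not_dist fun h' => h h'.symm]; simp
  have h2 : ∑ u, ∑ v, 2 * (pA u v f ⬝ᵥ pA u v f) ≤
      ∑ u, ∑ v, ∑ x, ∑ y, ((1 / 2) * dir u v x y f - kap u v x y f) :=
    sum_le_sum fun u _ => sum_le_sum fun v _ => johnson_sum u v f
  have h3 : 0 ≤ ∑ u, ∑ v, 2 * (pA u v f ⬝ᵥ pA u v f) :=
    sum_nonneg fun u _ => sum_nonneg fun v _ => mul_nonneg zero_le_two (dot_self_nonneg _)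
  have h4 := sum4_swap (fun u v x y => kap u v x y f)
  simp only [sum_sub_distrib, ← mul_sum] at h1 h2 ⊢
  simp only [← mul_sum] at h3
  linarith

lemma overlap_ge (f : Gr V → ℝ) :
    ∑ u, ∑ v, pA u v f ⬝ᵥ pA u v f ≤ ∑ u, ∑ v, ∑ w, pA u v f ⬝ᵥ pA u w f := by
  set F : V → V → V → ℝ := fun u v w => if v = w then 0 else pA u v f ⬝ᵥ pA u w f with hF
  have h1 : ∑ u, ∑ v, ∑ w, pA u v f ⬝ᵥ pA u w f =
      ∑ u, ∑ v, pA u v f ⬝ᵥ pA u v f + ∑ u, ∑ v, ∑ w, F u v w := by
    simp only [← sum_add_distrib]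
    refine sum_congr rfl fun u _ => sum_congr rfl fun v _ => ?_
    rw [← add_sum_erase _ _ (mem_univ v), ← add_sum_erase _ _ (mem_univ v)]
    simp only [hF, if_true, zero_add]
    congr 1
    exact sum_congr rfl fun w hw => by rw [if_neg (mem_erase.1 hw).1.symm]
  have h2 : 0 ≤ ∑ u, ∑ v, ∑ w, (F u v w + F v u w + F w u v) := by
    refine sum_nonneg fun u _ => sum_nonneg fun v _ => sum_nonneg fun w _ => ?_
    by_cases huv : u = v
    · simp [hF, huv, pA_self]
    by_cases huw : u = w
    · simp [hF, huw, pA_self]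
    by_cases hvw : v = w
    · simp [hF, hvw, pA_self]
    simp only [hF, huv, huw, hvw, if_false]
    rw [pA_of_ne huv, pA_of_ne huw, pA_of_ne (Ne.symm huv), pA_of_ne hvw, pA_of_ne (Ne.symm huw),
      pA_of_ne (Ne.symm hvw)]
    exact triple_ineq huv huw hvw f
  have h3 : ∑ u, ∑ v, ∑ w, F v u w = ∑ u, ∑ v, ∑ w, F u v w := sum_comm
  have h4 : ∑ u, ∑ v, ∑ w, F w u v = ∑ u, ∑ v, ∑ w, F u v w := by
    rw [sum_congr rfl fun u _ => sum_comm, sum_comm]
  simp only [sum_add_distrib] at h2
  linarith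

/-- The pair heat-bath operator (ordered pairs). -/
noncomputable def hH : (Gr V → ℝ) →ₗ[ℝ] (Gr V → ℝ) := ∑ u, ∑ v, pA u v

lemma hH_apply (f : Gr V → ℝ) : hH f = ∑ u, ∑ v, pA u v f := by
  simp only [hH, LinearMap.sum_apply]

lemma dot_hH (f : Gr V → ℝ) : f ⬝ᵥ hH f = ∑ u, ∑ v, pA u v f ⬝ᵥ pA u v f := by
  simp only [hH_apply, dotProduct_sum, dot_pA]

lemma hH_symm (f g : Gr V → ℝ) : f ⬝ᵥ hH g = hH f ⬝ᵥ g := by
  simp only [hH_apply, dotProduct_sum, sum_dotProduct, pA_symm]

theorem bochner (f : Gr V → ℝ) : 2 * (f ⬝ᵥ hH f) ≤ hH f ⬝ᵥ hH f := by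
  set B : V → V → V → V → ℝ := fun u v x y => pA u v f ⬝ᵥ pA x y f with hB
  have h1 : hH f ⬝ᵥ hH f = ∑ u, ∑ v, ∑ x, ∑ y, B u v x y := by
    rw [hH_apply]
    simp only [sum_dotProduct]
    simp only [dotProduct_sum, hB]
  have h2 : ∀ u v x y, B u v x y = (if Dist u v x y then B u v x y else 0) +
      (if x = u then B u v x y else 0) + (if x = v then B u v x y else 0) +
      (if y = u then B u v x y else 0) + (if y = v then B u v x y else 0) -
      (if y = v then (if x = u then B u v x y else 0) else 0) -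
      (if y = u then (if x = v then B u v x y else 0) else 0) := by
    intro u v x y
    by_cases huv : u = v
    · simp [hB, huv, pA_self]
    by_cases hxy : x = y
    · simp [hB, hxy, pA_self]
    have hD : Dist u v x y ↔ x ≠ u ∧ x ≠ v ∧ y ≠ u ∧ y ≠ v :=
      ⟨fun h => ⟨h.ux.symm, h.vx.symm, h.uy.symm, h.vy.symm⟩,
        fun h => ⟨huv, hxy, h.1.symm, h.2.2.1.symm, h.2.1.symm, h.2.2.2.symm⟩⟩
    rw [hD]
    by_cases a : x = u <;> by_cases b : x = v <;> by_cases c : y = u <;> by_cases d : y = v <;>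
      first
      | (exfalso; first | exact huv (a.symm.trans b) | exact huv (c.symm.trans d) |
          exact hxy (a.trans c.symm) | exact hxy (b.trans d.symm))
      | (simp only [ne_eq, eq_true a, eq_true b, eq_true c, eq_true d]; done)
      | simp [a, b, c, d, huv, Ne.symm huv]
  have hBs1 : ∀ u v x y, B u v x y = B v u x y := fun u v x y => by simp only [hB, pA_comm u v]
  have hBs2 : ∀ u v x y, B u v x y = B u v y x := fun u v x y => by simp only [hB, pA_comm x y]
  have e1 : ∑ u, ∑ v, ∑ x, ∑ y, (if x = u then B u v x y else 0) = ∑ u, ∑ v, ∑ w, B u v u w := by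
    refine sum_congr rfl fun u _ => sum_congr rfl fun v _ => ?_
    rw [sum_comm]; simp
  have e2 : ∑ u, ∑ v, ∑ x, ∑ y, (if x = v then B u v x y else 0) = ∑ u, ∑ v, ∑ w, B u v u w := by
    rw [sum_comm]
    refine sum_congr rfl fun u _ => sum_congr rfl fun v _ => ?_
    rw [sum_comm]; simp [hBs1 v u]
  have e3 : ∑ u, ∑ v, ∑ x, ∑ y, (if y = u then B u v x y else 0) = ∑ u, ∑ v, ∑ w, B u v u w := by
    refine sum_congr rfl fun u _ => sum_congr rfl fun v _ => ?_
    simp [hBs2 u v _ u]
  have e4 : ∑ u, ∑ v, ∑ x, ∑ y, (if y = v then B u v x y else 0) = ∑ u, ∑ v, ∑ w, B u v u w := by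
    rw [sum_comm]
    refine sum_congr rfl fun u _ => sum_congr rfl fun v _ => ?_
    simp only [sum_ite_eq', mem_univ, if_true]
    exact sum_congr rfl fun w _ => by rw [hBs1, hBs2]
  have e5 : ∑ u, ∑ v, ∑ x, ∑ y, (if y = v then (if x = u then B u v x y else 0) else 0) =
      ∑ u, ∑ v, B u v u v := by simp
  have e6 : ∑ u, ∑ v, ∑ x, ∑ y, (if y = u then (if x = v then B u v x y else 0) else 0) =
      ∑ u, ∑ v, B u v u v := by
    simp only [sum_ite_eq', mem_univ, if_true]
    exact sum_congr rfl fun u _ => sum_congr rfl fun v _ => hBs2 _ _ _ _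
  have h3 : ∑ u, ∑ v, ∑ x, ∑ y, B u v x y =
      (∑ u, ∑ v, ∑ x, ∑ y, if Dist u v x y then B u v x y else 0) +
        4 * (∑ u, ∑ v, ∑ w, B u v u w) - 2 * ∑ u, ∑ v, B u v u v := by
    rw [sum_congr rfl fun u _ => sum_congr rfl fun v _ => sum_congr rfl fun x _ =>
      sum_congr rfl fun y _ => h2 u v x y]
    simp only [sum_sub_distrib, sum_add_distrib]
    rw [e1, e2, e3, e4, e5, e6]
    ring
  have h4 := disjoint_nonneg f
  have h5 := overlap_ge f
  rw [h1, h3, dot_hH]
  simp only [hB]
  linarith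

theorem poincare_hH (f : Gr V → ℝ) : 2 * (f ⬝ᵥ (f - avg gdeg f)) ≤ f ⬝ᵥ hH f := by
  have hHE : ∀ g : Gr V → ℝ, hH (avg gdeg g) = 0 := by
    intro g
    rw [hH_apply]
    refine sum_eq_zero fun u _ => sum_eq_zero fun v _ => ?_
    by_cases h : u = v
    · rw [h, pA_self]
    · rw [pA_of_ne h, avg_avg_of_refine (fun _ _ h => (pkey_eq_iff.1 h).1), sub_self]
  have hEH : ∀ g : Gr V → ℝ, avg gdeg (hH g) = 0 := by
    intro g
    refine eq_of_dot fun w => ?_
    rw [avg_symm, hH_symm, hHE]; simp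
  have := psd_of_eigen (hH - (2 : ℝ) • (LinearMap.id - avg (gdeg (V := V)))) ?_ ?_ f
  · simp only [LinearMap.sub_apply, LinearMap.smul_apply, LinearMap.id_apply, dotProduct_smul,
      smul_eq_mul, dotProduct_sub] at this ⊢
    linarith
  · intro f g
    simp only [LinearMap.sub_apply, LinearMap.smul_apply, LinearMap.id_apply, dotProduct_smul,
      smul_eq_mul, dotProduct_sub, sub_dotProduct, smul_dotProduct, hH_symm, avg_symm]
  · intro μ w hμ hw
    simp only [LinearMap.sub_apply, LinearMap.smul_apply, LinearMap.id_apply] at hw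
    have h1 : avg gdeg w = 0 := by
      have h2 := congrArg (avg gdeg) hw
      rw [map_sub, map_smul, map_sub, hEH, avg_avg, sub_self, map_smul, smul_zero, sub_zero] at h2
      exact (smul_eq_zero.1 h2.symm).resolve_left hμ.ne
    rw [h1, sub_zero] at hw
    have h2 : hH w = (μ + 2) • w := by rw [add_smul, ← hw]; abel
    have h3 := bochner w
    have h4 := dot_hH w
    have h5 : 0 ≤ ∑ u, ∑ v, pA u v w ⬝ᵥ pA u v w :=
      sum_nonneg fun u _ => sum_nonneg fun v _ => dot_self_nonneg _
    rw [h2] at h3 h4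
    simp only [dotProduct_smul, smul_dotProduct, smul_eq_mul] at h3 h4
    have h6 : ∑ u, ∑ v, pA u v w ⬝ᵥ pA u v w = 0 := by
      rw [h4] at h3
      nlinarith
    have h7 : ∀ u v, pA u v w = 0 := by
      intro u v
      have a1 := (sum_eq_zero_iff_of_nonneg
        (fun u _ => sum_nonneg fun v _ => dot_self_nonneg _)).1 h6 u (mem_univ _)
      have a2 := (sum_eq_zero_iff_of_nonneg (fun v _ => dot_self_nonneg _)).1 a1 v (mem_univ _)
      exact dotProduct_self_eq_zero.1 a2
    rw [← h1, avg_of_inv]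
    refine conn w fun u v huv G G' h => ?_
    have := h7 u v
    rw [pA_of_ne huv, sub_eq_zero] at this
    rw [this]
    exact avg_inv w h

/-- Poincaré inequality for switches on all graphs (block by block in the degree vector). -/
theorem poincare_switch (f : Gr V → ℝ) :
    8 * (f ⬝ᵥ (f - avg gdeg f)) ≤ ∑ u, ∑ v, ∑ x, ∑ y, dir u v x y f := by
  have h1 := poincare_hH f
  have h2 : ∑ u, ∑ v, 2 * (pA u v f ⬝ᵥ pA u v f) ≤
      ∑ u, ∑ v, ∑ x, ∑ y, (1 / 2) * dir u v x y f :=
    sum_le_sum fun u _ => sum_le_sum fun v _ => (johnson_sum u v f).trans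
      (sum_le_sum fun x _ => sum_le_sum fun y _ => by linarith [kap_nonneg u v x y f])
  rw [dot_hH] at h1
  simp only [← mul_sum] at h2
  linarith

end Crest.Agent.R299
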