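import Crest.Agent.R299.Three

/-!
Graphs as symmetric Boolean matrices, the pair keys, switches, and the commutation relations.
-/

set_option autoImplicit false
set_option linter.unusedSectionVars false
set_option linter.unusedVariables false

namespace Crest.Agent.R299

open Finset Matrix

attribute [local instance] Classical.propDecidable

/-- A simple graph as a symmetric Boolean matrix with zero diagonal. -/
structure Gr (V : Type*) where
  adj : V → V → Bool
  symm : ∀ i j, adj i j = adj j i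
  irr : ∀ i, adj i i = false

variable {V : Type*} [Fintype V] [DecidableEq V]

lemma Gr.ext' {G G' : Gr V} (h : ∀ i j, G.adj i j = G'.adj i j) : G = G' := by
  cases G; cases G'; congr; ext i j; exact h i j

noncomputable instance instFintypeGr : Fintype (Gr V) :=
  Fintype.ofInjective Gr.adj fun _ _ h => Gr.ext' fun i j => congrFun (congrFun h i) j

/-- `0/1` value of a Boolean. -/
def bz (b : Bool) : ℤ := if b then 1 else 0

@[simp] lemma bz_true : bz true = 1 := rfl
@[simp] lemma bz_false : bz false = 0 := rfl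

lemma bz_nonneg (b : Bool) : 0 ≤ bz b := by cases b <;> simp
lemma bz_le_one (b : Bool) : bz b ≤ 1 := by cases b <;> simp
lemma bz_not (b : Bool) : bz (!b) = 1 - bz b := by cases b <;> simp
lemma bz_inj {a b : Bool} (h : bz a = bz b) : a = b := by revert h; cases a <;> cases b <;> simp

/-- Degree. -/
def gdeg (G : Gr V) (i : V) : ℤ := ∑ j, bz (G.adj i j)

lemma gdeg_sub (G G' : Gr V) (i i' : V) (S : Finset V)
    (h : ∀ j, j ∉ S → G.adj i j = G'.adj i' j) :
    gdeg G i - gdeg G' i' = ∑ j ∈ S, (bz (G.adj i j) - bz (G'.adj i' j)) := by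
  rw [gdeg, gdeg, ← sum_sub_distrib]
  exact (sum_subset (subset_univ S) fun j _ hj => by rw [h j hj, sub_self]).symm

lemma gdeg_sub_pair (G G' : Gr V) (i : V) {p q : V} (hpq : p ≠ q)
    (h : ∀ j, j ≠ p → j ≠ q → G.adj i j = G'.adj i j) :
    gdeg G i - gdeg G' i =
      bz (G.adj i p) + bz (G.adj i q) - (bz (G'.adj i p) + bz (G'.adj i q)) := by
  rw [gdeg_sub G G' i i {p, q} (fun j hj => by
    simp only [mem_insert, mem_singleton, not_or] at hj; exact h j hj.1 hj.2), sum_pair hpq]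
  ring

/-- Replace the entries selected by the (symmetrised) mask. -/
noncomputable def patch (μ : V → V → Prop) (G G' : Gr V) : Gr V where
  adj i j := if μ i j ∨ μ j i then G'.adj i j else G.adj i j
  symm i j := by simp only [or_comm, G.symm i j, G'.symm i j]
  irr i := by simp [G.irr, G'.irr]

/-- Relabel the vertices. -/
def relabel (σ : V → V) (G : Gr V) : Gr V where
  adj i j := G.adj (σ i) (σ j)
  symm i j := G.symm _ _
  irr i := G.irr _

/-- The graph generated by a Boolean matrix. -/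
def mkG (F : V → V → Bool) : Gr V where
  adj i j := decide (i ≠ j) && (F i j || F j i)
  symm i j := by simp only [ne_comm, Bool.or_comm]
  irr i := by simp

/-- Key of the pair `u, v`: the degrees, the edges not meeting the pair, and the edge `uv`. -/
noncomputable def pkey (u v : V) (G : Gr V) : (V → ℤ) × (V → V → Bool) × Bool :=
  (gdeg G, fun i j => if i ≠ u ∧ i ≠ v ∧ j ≠ u ∧ j ≠ v then G.adj i j else false, G.adj u v)

lemma pkey_eq_iff {u v : V} {G G' : Gr V} : pkey u v G = pkey u v G' ↔ gdeg G = gdeg G' ∧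
    (∀ i j, i ≠ u → i ≠ v → j ≠ u → j ≠ v → G.adj i j = G'.adj i j) ∧ G.adj u v = G'.adj u v := by
  simp only [pkey, Prod.mk.injEq]
  refine and_congr Iff.rfl (and_congr ⟨fun h i j h1 h2 h3 h4 => ?_, fun h => ?_⟩ Iff.rfl)
  · simpa [h1, h2, h3, h4] using congrFun (congrFun h i) j
  · ext i j
    split_ifs with h1
    · exact h i j h1.1 h1.2.1 h1.2.2.1 h1.2.2.2
    · rfl

lemma pkey_comm_iff {u v : V} {G G' : Gr V} :
    pkey u v G = pkey u v G' ↔ pkey v u G = pkey v u G' := by
  rw [pkey_eq_iff, pkey_eq_iff, G.symm u v, G'.symm u v]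
  exact and_congr Iff.rfl (and_congr ⟨fun h i j h1 h2 h3 h4 => h i j h2 h1 h4 h3,
    fun h i j h1 h2 h3 h4 => h i j h2 h1 h4 h3⟩ Iff.rfl)

lemma avg_pkey_comm (u v : V) (f : Gr V → ℝ) : avg (pkey u v) f = avg (pkey v u) f := by
  ext G; exact avg_key_congr (fun _ => pkey_comm_iff) f

/-- Column sums are constant on a pair class. -/
lemma col_of_pkey {u v : V} (huv : u ≠ v) {G G' : Gr V} (h : pkey u v G = pkey u v G') {z : V}
    (hu : z ≠ u) (hv : z ≠ v) :
    bz (G.adj u z) + bz (G.adj v z) = bz (G'.adj u z) + bz (G'.adj v z) := by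
  obtain ⟨h1, h2, -⟩ := pkey_eq_iff.1 h
  have := gdeg_sub_pair G G' z huv (fun j hj hj' => h2 z j hu hv hj hj')
  rw [h1, G.symm z, G.symm z, G'.symm z, G'.symm z] at this
  linarith

/-- Row sums of the `2 × 2` block are constant on the class of the other pair. -/
lemma row_of_pkey {x y : V} (hxy : x ≠ y) {G G' : Gr V} (h : pkey x y G = pkey x y G') {z : V}
    (hx : z ≠ x) (hy : z ≠ y) :
    bz (G.adj z x) + bz (G.adj z y) = bz (G'.adj z x) + bz (G'.adj z y) := by
  have := col_of_pkey hxy h hx hy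
  rwa [G.symm x, G.symm y, G'.symm x, G'.symm y] at this

/-- The extra datum of the refined key. -/
def rex (u v x y : V) (G : Gr V) : ℤ :=
  if bz (G.adj u x) + bz (G.adj u y) + bz (G.adj v x) + bz (G.adj v y) = 2 then
    bz (G.adj u x) + bz (G.adj u y) else 0

/-- The refined key. -/
noncomputable def rkey (u v x y : V) (G : Gr V) : ((V → ℤ) × (V → V → Bool) × Bool) × ℤ :=
  (pkey u v G, rex u v x y G)

lemma rkey_eq_iff {u v x y : V} {G G' : Gr V} : rkey u v x y G = rkey u v x y G' ↔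
    pkey u v G = pkey u v G' ∧ rex u v x y G = rex u v x y G' := by simp [rkey]

/-- Four distinct vertices. -/
structure Dist (u v x y : V) : Prop where
  uv : u ≠ v
  xy : x ≠ y
  ux : u ≠ x
  uy : u ≠ y
  vx : v ≠ x
  vy : v ≠ y

lemma Dist.symm {u v x y : V} (h : Dist u v x y) : Dist x y u v :=
  ⟨h.xy, h.uv, h.ux.symm, h.vx.symm, h.uy.symm, h.vy.symm⟩

/-- The switch on rows `u, v` and columns `x, y` is available. -/
def Sw (u v x y : V) (G : Gr V) : Prop :=
  Dist u v x y ∧ G.adj u x ≠ G.adj v x ∧ G.adj u y ≠ G.adj v y ∧ G.adj u x ≠ G.adj u y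

lemma Sw.symm {u v x y : V} {G : Gr V} (h : Sw u v x y G) : Sw x y u v G := by
  obtain ⟨h0, h1, h2, h3⟩ := h
  refine ⟨h0.symm, ?_⟩
  rw [G.symm x u, G.symm y u, G.symm x v, G.symm y v]
  revert h1 h2 h3
  cases G.adj u x <;> cases G.adj u y <;> cases G.adj v x <;> cases G.adj v y <;> simp

/-- Exchange the rows `u, v` on the columns `x, y`. -/
noncomputable def rsw (u v x y : V) (G : Gr V) : Gr V :=
  patch (fun i j => (i = u ∨ i = v) ∧ (j = x ∨ j = y)) G (relabel (Equiv.swap u v) G)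

section rsw

variable {u v x y : V} (hd : Dist u v x y) (G : Gr V)
include hd

lemma rsw_ux : (rsw u v x y G).adj u x = G.adj v x := by
  simp [rsw, patch, relabel, Equiv.swap_apply_of_ne_of_ne hd.ux.symm hd.vx.symm]

lemma rsw_uy : (rsw u v x y G).adj u y = G.adj v y := by
  simp [rsw, patch, relabel, Equiv.swap_apply_of_ne_of_ne hd.uy.symm hd.vy.symm]

lemma rsw_vx : (rsw u v x y G).adj v x = G.adj u x := by
  simp [rsw, patch, relabel, Equiv.swap_apply_of_ne_of_ne hd.ux.symm hd.vx.symm]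

lemma rsw_vy : (rsw u v x y G).adj v y = G.adj u y := by
  simp [rsw, patch, relabel, Equiv.swap_apply_of_ne_of_ne hd.uy.symm hd.vy.symm]

omit hd in
lemma rsw_off1 {i j : V} (h1 : i ≠ u) (h2 : i ≠ v) (h3 : j ≠ u) (h4 : j ≠ v) :
    (rsw u v x y G).adj i j = G.adj i j := by
  simp [rsw, patch, h1, h2, h3, h4]

omit hd in
lemma rsw_off2 {i j : V} (h1 : i ≠ x) (h2 : i ≠ y) (h3 : j ≠ x) (h4 : j ≠ y) :
    (rsw u v x y G).adj i j = G.adj i j := by
  simp [rsw, patch, h1, h2, h3, h4]

omit hd in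
lemma rsw_off3 {i j : V} (h1 : i ≠ u) (h2 : i ≠ v) (h3 : i ≠ x) (h4 : i ≠ y) :
    (rsw u v x y G).adj i j = G.adj i j := by
  simp [rsw, patch, h1, h2, h3, h4]

/-- Two graphs are equal if they agree on the block and off the block. -/
lemma ext_block {G G' : Gr V}
    (h1 : ∀ i j, i ≠ u → i ≠ v → j ≠ u → j ≠ v → G.adj i j = G'.adj i j)
    (h2 : ∀ i j, i ≠ x → i ≠ y → j ≠ x → j ≠ y → G.adj i j = G'.adj i j)
    (hux : G.adj u x = G'.adj u x) (huy : G.adj u y = G'.adj u y)
    (hvx : G.adj v x = G'.adj v x) (hvy : G.adj v y = G'.adj v y) : G = G' := by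
  have key : ∀ i j, (i = u ∨ i = v) → G.adj i j = G'.adj i j := by
    intro i j hi
    by_cases hjx : j = x
    · rcases hi with rfl | rfl <;> rw [hjx] <;> assumption
    by_cases hjy : j = y
    · rcases hi with rfl | rfl <;> rw [hjy] <;> assumption
    rcases hi with rfl | rfl
    · exact h2 _ _ hd.ux hd.uy hjx hjy
    · exact h2 _ _ hd.vx hd.vy hjx hjy
  refine Gr.ext' fun i j => ?_
  by_cases hi : i = u ∨ i = v
  · exact key i j hi
  by_cases hj : j = u ∨ j = v
  · rw [G.symm, G'.symm]; exact key j i hj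
  push Not at hi hj
  exact h1 i j hi.1 hi.2 hj.1 hj.2

lemma rsw_rsw : rsw u v x y (rsw u v x y G) = G := by
  refine ext_block hd (fun i j h1 h2 h3 h4 => ?_) (fun i j h1 h2 h3 h4 => ?_) ?_ ?_ ?_ ?_
  · rw [rsw_off1 _ h1 h2 h3 h4, rsw_off1 _ h1 h2 h3 h4]
  · rw [rsw_off2 _ h1 h2 h3 h4, rsw_off2 _ h1 h2 h3 h4]
  · rw [rsw_ux hd, rsw_vx hd]
  · rw [rsw_uy hd, rsw_vy hd]
  · rw [rsw_vx hd, rsw_ux hd]
  · rw [rsw_vy hd, rsw_uy hd]

lemma gdeg_rsw_u : gdeg (rsw u v x y G) u - gdeg G u =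
    bz (G.adj v x) + bz (G.adj v y) - (bz (G.adj u x) + bz (G.adj u y)) := by
  rw [gdeg_sub_pair _ G u hd.xy (fun j h1 h2 => rsw_off2 _ hd.ux hd.uy h1 h2), rsw_ux hd, rsw_uy hd]

lemma gdeg_rsw_v : gdeg (rsw u v x y G) v - gdeg G v =
    bz (G.adj u x) + bz (G.adj u y) - (bz (G.adj v x) + bz (G.adj v y)) := by
  rw [gdeg_sub_pair _ G v hd.xy (fun j h1 h2 => rsw_off2 _ hd.vx hd.vy h1 h2), rsw_vx hd, rsw_vy hd]

lemma rsw_col {z : V} (hu : z ≠ u) (hv : z ≠ v) :
    bz ((rsw u v x y G).adj u z) + bz ((rsw u v x y G).adj v z) =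
      bz (G.adj u z) + bz (G.adj v z) := by
  by_cases hx : z = x
  · rw [hx, rsw_ux hd, rsw_vx hd, add_comm]
  by_cases hy : z = y
  · rw [hy, rsw_uy hd, rsw_vy hd, add_comm]
  rw [rsw_off2 _ hd.ux hd.uy hx hy, rsw_off2 _ hd.vx hd.vy hx hy]

lemma gdeg_rsw_off {z : V} (hu : z ≠ u) (hv : z ≠ v) : gdeg (rsw u v x y G) z = gdeg G z := by
  have := gdeg_sub_pair (rsw u v x y G) G z hd.uv (fun j h1 h2 => rsw_off1 _ hu hv h1 h2)
  have h2 := rsw_col hd G hu hv
  rw [Gr.symm _ z, Gr.symm _ z, G.symm z, G.symm z] at this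
  linarith

end rsw

lemma Sw.rsw {u v x y : V} {G : Gr V} (h : Sw u v x y G) : Sw u v x y (rsw u v x y G) := by
  obtain ⟨h0, h1, h2, h3⟩ := h
  refine ⟨h0, ?_⟩
  rw [rsw_ux h0, rsw_uy h0, rsw_vx h0, rsw_vy h0]
  revert h1 h2 h3
  cases G.adj u x <;> cases G.adj u y <;> cases G.adj v x <;> cases G.adj v y <;> simp

lemma Sw.gdeg_rsw {u v x y : V} {G : Gr V} (h : Sw u v x y G) :
    gdeg (R299.rsw u v x y G) = gdeg G := by
  obtain ⟨h0, h1, h2, h3⟩ := h
  have hb : bz (G.adj v x) + bz (G.adj v y) = bz (G.adj u x) + bz (G.adj u y) := by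
    revert h1 h2 h3
    cases G.adj u x <;> cases G.adj u y <;> cases G.adj v x <;> cases G.adj v y <;> simp
  ext z
  by_cases hu : z = u
  · have := gdeg_rsw_u h0 G; rw [hu]; linarith
  by_cases hv : z = v
  · have := gdeg_rsw_v h0 G; rw [hv]; linarith
  exact gdeg_rsw_off h0 G hu hv

/-- The switch as an involution on all graphs. -/
noncomputable def tau (u v x y : V) : Gr V ≃ Gr V :=
  Function.Involutive.toPerm (fun G => if Sw u v x y G then rsw u v x y G else G) (by
    intro G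
    by_cases h : Sw u v x y G
    · simp only [h, h.rsw, if_true, rsw_rsw h.1]
    · simp only [h, if_false])

lemma tau_apply (u v x y : V) (G : Gr V) :
    tau u v x y G = if Sw u v x y G then rsw u v x y G else G := rfl

lemma tau_tau (u v x y : V) (G : Gr V) : tau u v x y (tau u v x y G) = G :=
  (tau u v x y).left_inv G

lemma tau_symm (u v x y : V) (G : Gr V) : tau x y u v G = tau u v x y G := by
  rw [tau_apply, tau_apply]
  by_cases h : Sw u v x y G
  · rw [if_pos h, if_pos h.symm]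
    obtain ⟨h0, h1, h2, h3⟩ := h
    refine ext_block h0 (fun i j h1 h2 h3 h4 => ?_) (fun i j h1 h2 h3 h4 => ?_) ?_ ?_ ?_ ?_
    · rw [rsw_off1 _ h1 h2 h3 h4, rsw_off2 _ h1 h2 h3 h4]
    · rw [rsw_off1 _ h1 h2 h3 h4, rsw_off2 _ h1 h2 h3 h4]
    all_goals
      first
      | rw [rsw_ux h0, Gr.symm _ u x, rsw_ux h0.symm, G.symm y u]
      | rw [rsw_uy h0, Gr.symm _ u y, rsw_vx h0.symm, G.symm x u]
      | rw [rsw_vx h0, Gr.symm _ v x, rsw_uy h0.symm, G.symm y v]
      | rw [rsw_vy h0, Gr.symm _ v y, rsw_vy h0.symm, G.symm x v]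
    all_goals
      revert h1 h2 h3
      cases G.adj u x <;> cases G.adj u y <;> cases G.adj v x <;> cases G.adj v y <;> simp
  · rw [if_neg h, if_neg fun h' => h h'.symm]

lemma gdeg_tau (u v x y : V) (G : Gr V) : gdeg (tau u v x y G) = gdeg G := by
  rw [tau_apply]; split_ifs with h
  · exact h.gdeg_rsw
  · rfl

lemma pkey_tau (u v x y : V) (G : Gr V) : pkey u v (tau u v x y G) = pkey u v G := by
  rw [tau_apply]; split_ifs with h
  · exact pkey_eq_iff.2 ⟨h.gdeg_rsw, fun i j h1 h2 h3 h4 => rsw_off1 _ h1 h2 h3 h4,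
      rsw_off2 _ h.1.ux h.1.uy h.1.vx h.1.vy⟩
  · rfl

lemma rkey_tau (u v x y : V) (G : Gr V) : rkey u v x y (tau u v x y G) = rkey u v x y G := by
  refine rkey_eq_iff.2 ⟨pkey_tau u v x y G, ?_⟩
  rw [tau_apply]; split_ifs with h
  · obtain ⟨h0, h1, h2, h3⟩ := h
    simp only [rex, rsw_ux h0, rsw_uy h0, rsw_vx h0, rsw_vy h0]
    revert h1 h2 h3
    cases G.adj u x <;> cases G.adj u y <;> cases G.adj v x <;> cases G.adj v y <;> simp
  · rfl

/-- On a refined class, availability of the switch is constant; within a pair class all graphs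
with an available switch form one refined class. -/
lemma rkey_iff_of_Sw {u v x y : V} {G G' : Gr V} (h : Sw u v x y G) :
    rkey u v x y G' = rkey u v x y G ↔ pkey u v G' = pkey u v G ∧ Sw u v x y G' := by
  obtain ⟨h0, h1, h2, h3⟩ := h
  rw [rkey_eq_iff]
  refine and_congr_right fun hp => ?_
  have c1 := col_of_pkey h0.uv hp h0.ux.symm h0.vx.symm
  have c2 := col_of_pkey h0.uv hp h0.uy.symm h0.vy.symm
  simp only [Sw, h0, true_and, rex]
  revert h1 h2 h3 c1 c2
  cases G.adj u x <;> cases G.adj u y <;> cases G.adj v x <;> cases G.adj v y <;>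
    cases G'.adj u x <;> cases G'.adj u y <;> cases G'.adj v x <;> cases G'.adj v y <;> simp

lemma supp_of_not_Sw {u v x y : V} (h0 : Dist u v x y) {G : Gr V} (h : ¬Sw u v x y G) :
    (∀ G', pkey u v G' = pkey u v G → rkey u v x y G' = rkey u v x y G) ∨
      (∀ G', pkey x y G' = pkey x y G → rkey x y u v G' = rkey x y u v G) := by
  by_cases hc : G.adj u x = G.adj v x ∨ G.adj u y = G.adj v y
  · left
    intro G' hp
    refine rkey_eq_iff.2 ⟨hp, ?_⟩
    have c1 := col_of_pkey h0.uv hp h0.ux.symm h0.vx.symm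
    have c2 := col_of_pkey h0.uv hp h0.uy.symm h0.vy.symm
    simp only [rex]
    revert hc c1 c2
    cases G.adj u x <;> cases G.adj u y <;> cases G.adj v x <;> cases G.adj v y <;>
      cases G'.adj u x <;> cases G'.adj u y <;> cases G'.adj v x <;> cases G'.adj v y <;> simp
  · right
    intro G' hp
    refine rkey_eq_iff.2 ⟨hp, ?_⟩
    have c1 := row_of_pkey h0.xy hp h0.ux h0.uy
    have c2 := row_of_pkey h0.xy hp h0.vx h0.vy
    simp only [Sw, h0, true_and] at h
    simp only [rex, Gr.symm _ x, Gr.symm _ y]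
    revert hc c1 c2 h
    cases G.adj u x <;> cases G.adj u y <;> cases G.adj v x <;> cases G.adj v y <;>
      cases G'.adj u x <;> cases G'.adj u y <;> cases G'.adj v x <;> cases G'.adj v y <;> simp

end Crest.Agent.R299
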