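import Crest.Agent.R299.Pair

/-!
The Johnson estimate transported to the classes of a pair of vertices.
-/

set_option autoImplicit false
set_option linter.unusedSectionVars false
set_option linter.unusedVariables false

namespace Crest.Agent.R299

open Finset Matrix

attribute [local instance] Classical.propDecidable

variable {V : Type*} [Fintype V] [DecidableEq V]

/-- One term of the pair operator. -/
noncomputable def gterm (u v x y : V) : (Gr V → ℝ) →ₗ[ℝ] (Gr V → ℝ) where
  toFun g G := (1 / 2) * (g G - g (tau u v x y G)) -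
    if Sw u v x y G then avg (rkey u v x y) g G else 0
  map_add' f g := by
    ext G; simp only [map_add, Pi.add_apply]; split_ifs <;> ring
  map_smul' c f := by
    ext G; simp only [map_smul, Pi.smul_apply, smul_eq_mul, RingHom.id_apply]; split_ifs <;> ring

lemma gterm_apply (u v x y : V) (g : Gr V → ℝ) (G : Gr V) : gterm u v x y g G =
    (1 / 2) * (g G - g (tau u v x y G)) - if Sw u v x y G then avg (rkey u v x y) g G else 0 := rfl

lemma dot_gterm (u v x y : V) (f g : Gr V → ℝ) : f ⬝ᵥ gterm u v x y g =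
    (1 / 2) * (f ⬝ᵥ (g - g ∘ tau u v x y)) -
      ∑ G, if Sw u v x y G then avg (rkey u v x y) f G * avg (rkey u v x y) g G else 0 := by
  set m : Gr V → ℝ := fun G => if Sw u v x y G then avg (rkey u v x y) g G else 0 with hm
  have h1 : gterm u v x y g = (1 / 2 : ℝ) • (g - g ∘ tau u v x y) - m := by
    ext G; simp [gterm_apply, hm]
  have h2 : avg (rkey u v x y) m = m := by
    refine avg_of_inv fun G G' h => ?_
    simp only [hm]
    by_cases hG : Sw u v x y G
    · rw [if_pos hG, if_pos ((rkey_iff_of_Sw hG).1 h.symm).2, avg_inv g h]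
    · rw [if_neg hG, if_neg fun h' => hG ((rkey_iff_of_Sw h').1 h).2]
  rw [h1, dotProduct_sub, dotProduct_smul, smul_eq_mul, ← h2, avg_symm]
  congr 1
  simp only [dotProduct, hm]
  refine sum_congr rfl fun G _ => ?_
  split_ifs <;> simp

lemma gterm_symm (u v x y : V) (f g : Gr V → ℝ) :
    f ⬝ᵥ gterm u v x y g = gterm u v x y f ⬝ᵥ g := by
  rw [dotProduct_comm _ g, dot_gterm, dot_gterm, dotProduct_sub, dotProduct_sub,
    dot_comp_invol _ (tau_tau u v x y), dotProduct_comm f g, dotProduct_comm _ g]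
  simp only [mul_comm]

/-- The pair operator. -/
noncomputable def gZ (u v : V) : (Gr V → ℝ) →ₗ[ℝ] (Gr V → ℝ) := ∑ x, ∑ y, gterm u v x y

lemma gZ_apply (u v : V) (g : Gr V → ℝ) : gZ u v g = ∑ x, ∑ y, gterm u v x y g := by
  simp only [gZ, LinearMap.sum_apply]

lemma gZ_symm (u v : V) (f g : Gr V → ℝ) : f ⬝ᵥ gZ u v g = gZ u v f ⬝ᵥ g := by
  simp only [gZ_apply, dotProduct_sum, sum_dotProduct, gterm_symm]

/-- The active columns of the pair `u, v` at `G`. -/
noncomputable def act (u v : V) (G : Gr V) : Finset V :=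
  univ.filter fun z => z ≠ u ∧ z ≠ v ∧ G.adj u z ≠ G.adj v z

lemma mem_act {u v : V} {G : Gr V} {z : V} :
    z ∈ act u v G ↔ z ≠ u ∧ z ≠ v ∧ G.adj u z ≠ G.adj v z := by simp [act]

/-- The graph with prescribed choices on the active columns. -/
noncomputable def jemb (u v : V) (G₀ : Gr V) (S : act u v G₀ → Bool) : Gr V :=
  patch (fun i j => (i = u ∨ i = v) ∧ j ∈ act u v G₀) G₀
    (mkG fun i j => if h : j ∈ act u v G₀ then
      (if i = u then S ⟨j, h⟩ else if i = v then !S ⟨j, h⟩ else false) else false)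

section jemb

variable {u v : V} (huv : u ≠ v) (G₀ : Gr V) (S : act u v G₀ → Bool)

lemma u_notMem_act : u ∉ act u v G₀ := by simp [mem_act]
lemma v_notMem_act : v ∉ act u v G₀ := by simp [mem_act]

lemma jemb_u (c : act u v G₀) : (jemb u v G₀ S).adj u c = S c := by
  have h := mem_act.1 c.2
  simp [jemb, patch, mkG, c.2, u_notMem_act, h.1.symm]

include huv in
lemma jemb_v (c : act u v G₀) : (jemb u v G₀ S).adj v c = !S c := by
  have h := mem_act.1 c.2
  simp [jemb, patch, mkG, c.2, v_notMem_act, h.2.1.symm, huv.symm]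

lemma jemb_off {i j : V} (h1 : i ≠ u) (h2 : i ≠ v) (h3 : j ≠ u) (h4 : j ≠ v) :
    (jemb u v G₀ S).adj i j = G₀.adj i j := by
  simp [jemb, patch, h1, h2, h3, h4]

lemma jemb_u' {j : V} (h : j ∉ act u v G₀) : (jemb u v G₀ S).adj u j = G₀.adj u j := by
  simp [jemb, patch, h, u_notMem_act]

lemma jemb_v' {j : V} (h : j ∉ act u v G₀) : (jemb u v G₀ S).adj v j = G₀.adj v j := by
  simp [jemb, patch, h, v_notMem_act]

lemma ext_rows {G G' : Gr V}
    (h1 : ∀ i j, i ≠ u → i ≠ v → j ≠ u → j ≠ v → G.adj i j = G'.adj i j)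
    (hu : ∀ j, G.adj u j = G'.adj u j) (hv : ∀ j, G.adj v j = G'.adj v j) : G = G' := by
  refine Gr.ext' fun i j => ?_
  by_cases hiu : i = u
  · rw [hiu, hu]
  by_cases hiv : i = v
  · rw [hiv, hv]
  by_cases hju : j = u
  · rw [hju, G.symm, G'.symm, hu]
  by_cases hjv : j = v
  · rw [hjv, G.symm, G'.symm, hv]
  exact h1 i j hiu hiv hju hjv

lemma sum_bz_cnt {C : Type*} [Fintype C] (S : C → Bool) : ∑ c, bz (S c) = (cnt S : ℤ) := by
  simp only [cnt, card_filter, bz]
  push_cast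
  rfl

include huv in
lemma jemb_col {z : V} (hu : z ≠ u) (hv : z ≠ v) :
    bz ((jemb u v G₀ S).adj u z) + bz ((jemb u v G₀ S).adj v z) =
      bz (G₀.adj u z) + bz (G₀.adj v z) := by
  by_cases h : z ∈ act u v G₀
  · have h1 := jemb_u G₀ S ⟨z, h⟩
    have h2 := jemb_v huv G₀ S ⟨z, h⟩
    simp only at h1 h2
    have h3 := (mem_act.1 h).2.2
    rw [h1, h2]
    revert h3
    cases S ⟨z, h⟩ <;> cases G₀.adj u z <;> cases G₀.adj v z <;> simp
  · rw [jemb_u' _ _ h, jemb_v' _ _ h]

lemma gdeg_jemb_u (T : act u v G₀ → Bool) :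
    gdeg (jemb u v G₀ S) u - gdeg (jemb u v G₀ T) u = (cnt S : ℤ) - cnt T := by
  rw [gdeg_sub _ _ u u (act u v G₀) (fun j hj => by rw [jemb_u' _ _ hj, jemb_u' _ _ hj]),
    ← sum_coe_sort, ← sum_bz_cnt, ← sum_bz_cnt, ← sum_sub_distrib]
  simp only [jemb_u]

include huv in
lemma gdeg_jemb_v (T : act u v G₀ → Bool) :
    gdeg (jemb u v G₀ S) v - gdeg (jemb u v G₀ T) v = (cnt T : ℤ) - cnt S := by
  rw [gdeg_sub _ _ v v (act u v G₀) (fun j hj => by rw [jemb_v' _ _ hj, jemb_v' _ _ hj]),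
    ← sum_coe_sort, ← sum_bz_cnt, ← sum_bz_cnt, ← sum_sub_distrib]
  simp only [jemb_v huv, bz_not]
  exact sum_congr rfl fun c _ => by ring

include huv in
lemma pkey_jemb_iff (T : act u v G₀ → Bool) :
    pkey u v (jemb u v G₀ S) = pkey u v (jemb u v G₀ T) ↔ cnt S = cnt T := by
  constructor
  · intro h
    have h1 := gdeg_jemb_u G₀ S T
    rw [(pkey_eq_iff.1 h).1] at h1
    omega
  · intro h
    refine pkey_eq_iff.2 ⟨?_, fun i j a b c d => ?_, ?_⟩
    · ext z
      by_cases hu : z = u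
      · have := gdeg_jemb_u G₀ S T; rw [hu]; omega
      by_cases hv : z = v
      · have := gdeg_jemb_v huv G₀ S T; rw [hv]; omega
      have h1 := gdeg_sub_pair (jemb u v G₀ S) (jemb u v G₀ T) z huv (fun j a b => by
        rw [jemb_off _ _ hu hv a b, jemb_off _ _ hu hv a b])
      have h2 := jemb_col huv G₀ S hu hv
      have h3 := jemb_col huv G₀ T hu hv
      simp only [Gr.symm _ z] at h1
      linarith
    · rw [jemb_off _ _ a b c d, jemb_off _ _ a b c d]
    · rw [jemb_u' _ _ (v_notMem_act G₀), jemb_u' _ _ (v_notMem_act G₀)]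

lemma jemb_inj (T : act u v G₀ → Bool) (h : jemb u v G₀ S = jemb u v G₀ T) : S = T := by
  ext c; rw [← jemb_u G₀ S, h, jemb_u]

include huv in
lemma jemb_surj' {G : Gr V}
    (h1 : ∀ i j, i ≠ u → i ≠ v → j ≠ u → j ≠ v → G.adj i j = G₀.adj i j)
    (h2 : G.adj u v = G₀.adj u v)
    (h3 : ∀ z, z ≠ u → z ≠ v →
      bz (G.adj u z) + bz (G.adj v z) = bz (G₀.adj u z) + bz (G₀.adj v z)) :
    jemb u v G₀ (fun c => G.adj u c) = G := by
  have key : ∀ j, j ∉ act u v G₀ → G₀.adj u j = G.adj u j ∧ G₀.adj v j = G.adj v j := by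
    intro j hj
    by_cases hju : j = u
    · rw [hju, G.irr, G₀.irr, G.symm v, G₀.symm v, h2]; exact ⟨rfl, rfl⟩
    by_cases hjv : j = v
    · rw [hjv, G.irr, G₀.irr, h2]; exact ⟨rfl, rfl⟩
    have h4 := h3 j hju hjv
    simp only [mem_act, ne_eq, hju, hjv, not_false_eq_true, true_and] at hj
    revert h4 hj
    cases G.adj u j <;> cases G.adj v j <;> cases G₀.adj u j <;> cases G₀.adj v j <;> simp
  refine ext_rows (u := u) (v := v) (fun i j a b c d => ?_) (fun j => ?_) (fun j => ?_)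
  · rw [jemb_off _ _ a b c d, h1 i j a b c d]
  · by_cases hj : j ∈ act u v G₀
    · exact jemb_u G₀ _ ⟨j, hj⟩
    · rw [jemb_u' _ _ hj, (key j hj).1]
  · by_cases hj : j ∈ act u v G₀
    · have h4 := jemb_v huv G₀ (fun c => G.adj u c) ⟨j, hj⟩
      simp only at h4
      rw [h4]
      obtain ⟨a, b, c⟩ := mem_act.1 hj
      have h5 := h3 j a b
      revert h5 c
      cases G.adj u j <;> cases G.adj v j <;> cases G₀.adj u j <;> cases G₀.adj v j <;> simp
    · rw [jemb_v' _ _ hj, (key j hj).2]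

include huv in
lemma jemb_surj {G : Gr V} (h : pkey u v G = pkey u v (jemb u v G₀ S)) :
    ∃ T, jemb u v G₀ T = G := by
  obtain ⟨h1, h2, h3⟩ := pkey_eq_iff.1 h
  refine ⟨_, jemb_surj' huv G₀ (fun i j a b c d => ?_) ?_ (fun z a b => ?_)⟩
  · rw [h2 i j a b c d, jemb_off _ _ a b c d]
  · rw [h3, jemb_u' _ _ (v_notMem_act G₀)]
  · rw [col_of_pkey huv h a b, jemb_col huv _ _ a b]

include huv in
lemma avg_pkey_jemb (g : Gr V → ℝ) :
    avg (pkey u v) g (jemb u v G₀ S) = avg cnt (g ∘ jemb u v G₀) S := by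
  refine avg_transport _ _ _ S (fun a b _ _ h => jemb_inj G₀ a b h)
    (fun a ha => (pkey_jemb_iff huv G₀ a S).2 ha) (fun G hG => ?_) g
  obtain ⟨T, rfl⟩ := jemb_surj huv G₀ S hG
  exact ⟨T, (pkey_jemb_iff huv G₀ T S).1 hG, rfl⟩

include huv in
lemma Sw_jemb_iff (x y : act u v G₀) : Sw u v x y (jemb u v G₀ S) ↔ S x ≠ S y := by
  have hx := mem_act.1 x.2
  have hy := mem_act.1 y.2
  simp only [Sw, jemb_u, jemb_v huv]
  constructor
  · exact fun h => h.2.2.2
  · intro h
    refine ⟨⟨huv, fun h' => h (by rw [Subtype.ext h']), hx.1.symm, hy.1.symm, hx.2.1.symm,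
      hy.2.1.symm⟩, by simp, by simp, h⟩

include huv in
lemma mem_act_of_Sw {x y : V} (h : Sw u v x y (jemb u v G₀ S)) :
    x ∈ act u v G₀ ∧ y ∈ act u v G₀ := by
  obtain ⟨h0, h1, h2, -⟩ := h
  constructor
  · by_contra hx
    rw [jemb_u' _ _ hx, jemb_v' _ _ hx] at h1
    exact hx (mem_act.2 ⟨h0.ux.symm, h0.vx.symm, h1⟩)
  · by_contra hy
    rw [jemb_u' _ _ hy, jemb_v' _ _ hy] at h2
    exact hy (mem_act.2 ⟨h0.uy.symm, h0.vy.symm, h2⟩)

include huv in
lemma tau_jemb (x y : act u v G₀) : tau u v x y (jemb u v G₀ S) = jemb u v G₀ (sw x y S) := by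
  rw [tau_apply]
  split_ifs with h
  · have hS := (Sw_jemb_iff huv G₀ S x y).1 h
    have h0 := h.1
    have hoff : ∀ c : act u v G₀, (c : V) ≠ x → (c : V) ≠ y → sw x y S c = S c := by
      intro c a b
      rw [sw_apply, Equiv.swap_apply_of_ne_of_ne (fun h => a (by rw [h])) (fun h => b (by rw [h]))]
    refine ext_block h0 (fun i j a b c d => ?_) (fun i j a b c d => ?_) ?_ ?_ ?_ ?_
    · rw [rsw_off1 _ a b c d, jemb_off _ _ a b c d, jemb_off _ _ a b c d]
    · rw [rsw_off2 _ a b c d]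
      have key : ∀ j, j ≠ (x : V) → j ≠ (y : V) →
          (jemb u v G₀ S).adj u j = (jemb u v G₀ (sw x y S)).adj u j ∧
          (jemb u v G₀ S).adj v j = (jemb u v G₀ (sw x y S)).adj v j := by
        intro j c d
        by_cases hj : j ∈ act u v G₀
        · have a1 := jemb_u G₀ S ⟨j, hj⟩
          have a2 := jemb_u G₀ (sw x y S) ⟨j, hj⟩
          have a3 := jemb_v huv G₀ S ⟨j, hj⟩
          have a4 := jemb_v huv G₀ (sw x y S) ⟨j, hj⟩
          rw [hoff ⟨j, hj⟩ c d] at a2 a4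
          exact ⟨a1.trans a2.symm, a3.trans a4.symm⟩
        · rw [jemb_u' _ _ hj, jemb_u' _ _ hj, jemb_v' _ _ hj, jemb_v' _ _ hj]
          exact ⟨rfl, rfl⟩
      by_cases hiu : i = u
      · rw [hiu]; exact (key j c d).1
      by_cases hiv : i = v
      · rw [hiv]; exact (key j c d).2
      by_cases hju : j = u
      · rw [hju, Gr.symm, Gr.symm _ i]; exact (key i a b).1
      by_cases hjv : j = v
      · rw [hjv, Gr.symm, Gr.symm _ i]; exact (key i a b).2
      rw [jemb_off _ _ hiu hiv hju hjv, jemb_off _ _ hiu hiv hju hjv]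
    all_goals
      simp only [rsw_ux h0, rsw_uy h0, rsw_vx h0, rsw_vy h0, jemb_u, jemb_v huv, sw_apply,
        Equiv.swap_apply_left, Equiv.swap_apply_right]
      revert hS
      cases S x <;> cases S y <;> simp
  · have hS : S x = S y := by
      by_contra h'; exact h ((Sw_jemb_iff huv G₀ S x y).2 h')
    rw [sw_of_eq hS]

include huv in
lemma gterm_jemb (g : Gr V → ℝ) (x y : act u v G₀) :
    gterm u v x y g (jemb u v G₀ S) = jterm x y (g ∘ jemb u v G₀) S := by
  rw [gterm_apply, jterm, tau_jemb huv]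
  simp only [Function.comp_apply, Sw_jemb_iff huv]
  congr 1
  split_ifs with h
  · have hSw := (Sw_jemb_iff huv G₀ S x y).2 h
    have hk : ∀ T, jkey x y T = jkey x y S ↔ cnt T = cnt S ∧ T x ≠ T y := by
      intro T
      simp only [jkey, Prod.mk.injEq]
      refine and_congr Iff.rfl ?_
      revert h
      cases T x <;> cases T y <;> cases S x <;> cases S y <;> simp
    refine avg_transport _ _ _ S (fun a b _ _ h => jemb_inj G₀ a b h) (fun a ha => ?_)
      (fun G hG => ?_) g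
    · rw [rkey_iff_of_Sw hSw, pkey_jemb_iff huv, Sw_jemb_iff huv]
      exact (hk a).1 ha
    · rw [rkey_iff_of_Sw hSw] at hG
      obtain ⟨T, rfl⟩ := jemb_surj huv G₀ S hG.1
      rw [pkey_jemb_iff huv, Sw_jemb_iff huv] at hG
      exact ⟨T, (hk T).2 hG, rfl⟩
  · rfl

include huv in
lemma gZ_jemb (g : Gr V → ℝ) : gZ u v g (jemb u v G₀ S) = jZ (g ∘ jemb u v G₀) S := by
  have hzero : ∀ x y, x ∉ act u v G₀ ∨ y ∉ act u v G₀ → gterm u v x y g (jemb u v G₀ S) = 0 := by
    intro x y h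
    have : ¬Sw u v x y (jemb u v G₀ S) := fun h' => by
      have := mem_act_of_Sw huv G₀ S h'
      tauto
    simp [gterm_apply, tau_apply, this]
  rw [gZ_apply, jZ]
  simp only [Finset.sum_apply, ← gterm_jemb huv]
  rw [← sum_subset (subset_univ (act u v G₀))
    (fun x _ hx => sum_eq_zero fun y _ => hzero x y (Or.inl hx)), ← sum_coe_sort]
  refine sum_congr rfl fun x _ => ?_
  rw [← sum_subset (subset_univ (act u v G₀)) (fun y _ hy => hzero x y (Or.inr hy)),
    ← sum_coe_sort]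

end jemb

theorem johnson_graph {u v : V} (huv : u ≠ v) (f : Gr V → ℝ) :
    2 * ((f - avg (pkey u v) f) ⬝ᵥ (f - avg (pkey u v) f)) ≤
      (f - avg (pkey u v) f) ⬝ᵥ gZ u v (f - avg (pkey u v) f) := by
  set A : (Gr V → ℝ) →ₗ[ℝ] (Gr V → ℝ) := LinearMap.id - avg (pkey u v) with hA
  have hAs : ∀ f g, f ⬝ᵥ A g = A f ⬝ᵥ g := by intro f g; simp [hA, avg_symm]
  have hAA : ∀ f, A (A f) = A f := by intro f; simp [hA, avg_avg]
  have := psd_of_eigen (A ∘ₗ gZ u v ∘ₗ A - (2 : ℝ) • A) ?_ ?_ f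
  · simp only [LinearMap.sub_apply, LinearMap.comp_apply, LinearMap.smul_apply, dotProduct_sub,
      dotProduct_smul, smul_eq_mul] at this
    rw [hAs, ← hAA f, hAs f (A f), hAA] at this
    change 2 * (A f ⬝ᵥ A f) ≤ A f ⬝ᵥ gZ u v (A f)
    linarith
  · intro f g
    simp only [LinearMap.sub_apply, LinearMap.comp_apply, LinearMap.smul_apply, dotProduct_sub,
      dotProduct_smul, smul_eq_mul, sub_dotProduct, smul_dotProduct]
    rw [hAs, gZ_symm, hAs, hAs]
  · intro μ w hμ hw
    simp only [LinearMap.sub_apply, LinearMap.comp_apply, LinearMap.smul_apply] at hw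
    have h1 : A w = w := by
      have h2 := congrArg A hw
      rw [map_sub, map_smul, hAA, hAA, map_smul, hw] at h2
      exact (smul_right_injective _ hμ.ne h2).symm
    rw [h1] at hw
    have h0 : avg (pkey u v) w = 0 := by
      simpa [hA] using h1
    ext G₀
    have h3 := johnson (w ∘ jemb u v G₀) (μ + 2) (by linarith) ?_ ?_
    · have h4 := congrFun h3 (fun c => G₀.adj u c)
      rwa [Function.comp_apply,
        jemb_surj' huv G₀ (fun _ _ _ _ _ _ => rfl) rfl (fun _ _ _ => rfl)] at h4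
    · ext S
      rw [← avg_pkey_jemb huv, h0]; rfl
    · intro S
      have h4 := congrFun hw (jemb u v G₀ S)
      simp only [hA, LinearMap.sub_apply, LinearMap.id_apply, Pi.sub_apply, Pi.smul_apply,
        smul_eq_mul] at h4
      rw [avg_pkey_jemb huv, gZ_jemb huv] at h4
      have h5 : gZ u v w ∘ jemb u v G₀ = jZ (w ∘ jemb u v G₀) := by
        ext T; exact gZ_jemb huv G₀ T w
      rw [h5] at h4
      simp only [Function.comp_apply]
      linarith

end Crest.Agent.R299
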