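import Crest.Agent.R299.Avg

/-!
The Johnson-graph estimate: on `s`-subsets of a finite set, half the swap Laplacian minus the sum
of the "split pair" averaging operators has no eigenvalue below one on mean-zero functions.
(Ordered pairs are used, so the constants are doubled.)
-/

set_option autoImplicit false

namespace Crest.Agent.R299

open Finset Matrix

attribute [local instance] Classical.propDecidable

variable {C : Type*} [Fintype C] [DecidableEq C]

/-- Number of `true` entries. -/
def cnt (S : C → Bool) : ℕ := (univ.filter fun c => S c = true).card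

/-- Precomposition with a transposition. -/
def sw {β : Type*} (z w : C) : (C → β) ≃ (C → β) where
  toFun S := S ∘ Equiv.swap z w
  invFun S := S ∘ Equiv.swap z w
  left_inv S := by ext c; simp
  right_inv S := by ext c; simp

omit [Fintype C] in
lemma sw_apply {β : Type*} (z w : C) (S : C → β) (c : C) : sw z w S c = S (Equiv.swap z w c) := rfl

omit [Fintype C] in
lemma sw_sw {β : Type*} (z w : C) (S : C → β) : sw z w (sw z w S) = S := (sw z w).left_inv S

omit [Fintype C] in
lemma sw_of_eq {β : Type*} {z w : C} {S : C → β} (h : S z = S w) : sw z w S = S := by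
  ext c
  rw [sw_apply, Equiv.swap_apply_def]
  split_ifs with h1 h2
  · rw [h1, h]
  · rw [h2, h]
  · rfl

omit [DecidableEq C] in
lemma card_filter_comp_equiv (e : C ≃ C) (p : C → Prop) [DecidablePred p] :
    (univ.filter fun c => p (e c)).card = (univ.filter p).card := by
  refine card_bij (fun c _ => e c) (by simp) (fun a _ b _ h => e.injective h) ?_
  intro b hb
  exact ⟨e.symm b, by simpa using hb, by simp⟩

lemma cnt_sw (z w : C) (S : C → Bool) : cnt (sw z w S) = cnt S :=
  card_filter_comp_equiv (Equiv.swap z w) (fun c => S c = true)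

/-- The key "cardinality and whether `z, w` are split". -/
def jkey (z w : C) (S : C → Bool) : ℕ × Bool := (cnt S, xor (S z) (S w))

/-- One term of the operator. -/
noncomputable def jterm (z w : C) (g : (C → Bool) → ℝ) (S : C → Bool) : ℝ :=
  (1 / 2) * (g S - g (sw z w S)) - if S z ≠ S w then avg (jkey z w) g S else 0

/-- The operator `L/2 - K` (ordered pairs). -/
noncomputable def jZ (g : (C → Bool) → ℝ) (S : C → Bool) : ℝ := ∑ z, ∑ w, jterm z w g S

lemma jterm_sub (z w : C) (g g' : (C → Bool) → ℝ) (S : C → Bool) :
    jterm z w (g - g') S = jterm z w g S - jterm z w g' S := by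
  simp only [jterm, map_sub, Pi.sub_apply]
  split_ifs <;> ring

lemma jZ_sub (g g' : (C → Bool) → ℝ) (S : C → Bool) : jZ (g - g') S = jZ g S - jZ g' S := by
  simp only [jZ, jterm_sub, sum_sub_distrib]

lemma jterm_sw (x y z w : C) (g : (C → Bool) → ℝ) (S : C → Bool) :
    jterm z w g (sw x y S) = jterm (Equiv.swap x y z) (Equiv.swap x y w) (g ∘ sw x y) S := by
  have h1 : sw z w (sw x y S) = sw x y (sw (Equiv.swap x y z) (Equiv.swap x y w) S) := by
    ext c
    simp only [sw_apply]
    rw [Equiv.swap_apply_apply]
    simp
  have h2 : avg (jkey z w) g (sw x y S) =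
      avg (jkey (Equiv.swap x y z) (Equiv.swap x y w)) (g ∘ sw x y) S := by
    refine avg_comp_equiv (sw x y) _ _ S (fun T => ?_) g
    simp only [jkey, cnt_sw, sw_apply]
  simp only [jterm, h1, h2, Function.comp_apply, sw_apply]

lemma jZ_sw (x y : C) (g : (C → Bool) → ℝ) (S : C → Bool) :
    jZ g (sw x y S) = jZ (g ∘ sw x y) S := by
  simp only [jZ, jterm_sw]
  rw [← Equiv.sum_comp (Equiv.swap x y) (fun z => ∑ w, jterm z w (g ∘ sw x y) S)]
  refine sum_congr rfl fun z _ => ?_
  rw [← Equiv.sum_comp (Equiv.swap x y) (fun w => jterm (Equiv.swap x y z) w (g ∘ sw x y) S)]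

omit [DecidableEq C] in
lemma exists_perm_of_fiber_card {β : Type*} (S T : C → β)
    (h : ∀ b, (univ.filter fun c => S c = b).card = (univ.filter fun c => T c = b).card) :
    ∃ e : Equiv.Perm C, ∀ c, T (e c) = S c := by
  refine ⟨Equiv.ofFiberEquiv (f := S) (g := T) fun b => Fintype.equivOfCardEq ?_, fun c => ?_⟩
  · rw [Fintype.card_subtype, Fintype.card_subtype]; convert h b
  · exact Equiv.ofFiberEquiv_map _ c

omit [DecidableEq C] in
lemma cnt_false (S : C → Bool) :
    (univ.filter fun c => S c = false).card = Fintype.card C - cnt S := by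
  have := card_filter_add_card_filter_not (s := univ) (fun c => S c = true)
  simp only [Bool.not_eq_true, card_univ] at this
  unfold cnt
  omega

lemma inv_of_sw_inv (w : (C → Bool) → ℝ) (h : ∀ x y S, w (sw x y S) = w S) (S T : C → Bool)
    (hST : cnt S = cnt T) : w S = w T := by
  have hperm : ∀ e : Equiv.Perm C, ∀ T, w (T ∘ e) = w T := by
    intro e
    induction e using Equiv.Perm.swap_induction_on with
    | one => intro T; rfl
    | swap_mul f x y hxy ih =>
      intro T
      have : T ∘ (Equiv.swap x y * f) = (sw x y T) ∘ f := rfl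
      rw [this, ih, h]
  obtain ⟨e, he⟩ := exists_perm_of_fiber_card S T (by
    intro b
    cases b
    · have h1 := cnt_false S
      have h2 := cnt_false T
      rw [hST] at h1
      convert h1.trans h2.symm
    · convert hST using 1 <;> unfold cnt <;> congr)
  have : S = T ∘ e := by ext c; simp [he]
  rw [this, hperm]

theorem johnson (w : (C → Bool) → ℝ) (μ : ℝ) (hμ : μ < 2) (h0 : avg cnt w = 0)
    (h : ∀ S, jZ w S - avg cnt (jZ w) S = μ * w S) : w = 0 := by
  have inv : ∀ x y S, w (sw x y S) = w S := by
    intro x y
    set ψ : (C → Bool) → ℝ := w - w ∘ sw x y with hψ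
    have hanti : ∀ S, ψ (sw x y S) = -ψ S := by
      intro S; simp [hψ, sw_sw]
    have hzero : ∀ S, S x = S y → ψ S = 0 := by
      intro S hS; simp [hψ, sw_of_eq hS]
    have heig : ∀ S, jZ ψ S = μ * ψ S := by
      intro S
      have h1 := h S
      have h2 := h (sw x y S)
      rw [avg_inv (k := cnt) (jZ w) (cnt_sw x y S)] at h2
      rw [hψ, jZ_sub, ← jZ_sw]
      simp only [Pi.sub_apply, Function.comp_apply]
      linarith
    obtain ⟨S₀, -, hS₀⟩ := exists_max_image univ ψ univ_nonempty
    have hle : ∀ S, ψ S ≤ ψ S₀ := fun S => hS₀ S (mem_univ _)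
    have hge : ∀ S, -ψ S₀ ≤ ψ S := fun S => by have := hle (sw x y S); rw [hanti] at this; linarith
    have hM : ψ S₀ ≤ 0 := by
      by_contra hM
      push Not at hM
      have hxy : S₀ x ≠ S₀ y := fun h => by rw [hzero _ h] at hM; exact lt_irrefl _ hM
      have hxy' : x ≠ y := fun h => hxy (by rw [h])
      -- averages vanish for keys invariant under the transposition
      have havg0 : ∀ z w', (∀ T, jkey z w' (sw x y T) = jkey z w' T) →
          avg (jkey z w') ψ S₀ = 0 := by
        intro z w' hk
        have h1 := congrFun (avg_comp_of_key (sw x y) (jkey z w') hk ψ) S₀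
        have h2 : ψ ∘ sw x y = -ψ := by ext T; simp [hanti]
        rw [h2, map_neg, Pi.neg_apply] at h1
        linarith
      -- half bound
      have hhalf : ∀ z w', S₀ z ≠ S₀ w' →
          (∀ T : C → Bool, T z ≠ T w' → T x = T y ∨ sw z w' T x = sw z w' T y) →
          avg (jkey z w') ψ S₀ ≤ ψ S₀ / 2 := by
        intro z w' hzw hT
        have hk : ∀ T, jkey z w' (sw z w' T) = jkey z w' T := by
          intro T; simp [jkey, cnt_sw, sw_apply, Bool.xor_comm]
        have h1 := congrFun (avg_comp_of_key (sw z w') (jkey z w') hk ψ) S₀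
        have h2 : avg (jkey z w') (ψ + ψ ∘ sw z w') S₀ ≤ ψ S₀ := by
          refine avg_le fun T hT' => ?_
          have : T z ≠ T w' := by
            have h3 := congrArg Prod.snd hT'
            simp only [jkey] at h3
            revert h3 hzw
            cases T z <;> cases T w' <;> cases S₀ z <;> cases S₀ w' <;> simp
          rcases hT T this with h3 | h3
          · simpa [hzero _ h3] using hle _
          · simpa [hzero _ h3] using hle _
        rw [map_add, Pi.add_apply, h1] at h2
        linarith
      have hterm : ∀ z w', 0 ≤ jterm z w' ψ S₀ := by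
        intro z w'
        by_cases hzw : S₀ z = S₀ w'
        · simp [jterm, hzw, sw_of_eq hzw]
        have hzw' : z ≠ w' := fun h => hzw (by rw [h])
        simp only [jterm, ne_eq, hzw, not_false_eq_true, if_true]
        by_cases hinv : ∀ T, jkey z w' (sw x y T) = jkey z w' T
        · rw [havg0 z w' hinv]; have := hle (sw z w' S₀); linarith
        · have hT : ∀ T : C → Bool, T z ≠ T w' → (T x = T y ∨ sw z w' T x = sw z w' T y) := by
            intro T hT
            by_contra hcon
            apply hinv
            intro T'
            push Not at hcon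
            simp only [jkey, cnt_sw, sw_apply] at hcon ⊢
            congr 1
            obtain ⟨hc1, hc2⟩ := hcon
            have hyx : y ≠ x := hxy'.symm
            have hb : ∀ a b c : Bool, a ≠ b → a ≠ c → b = c := by decide
            by_cases hzx : z = x
            · subst hzx
              by_cases hwy : w' = y
              · subst hwy; simp [Bool.xor_comm]
              · exfalso
                rw [Equiv.swap_apply_left, Equiv.swap_apply_of_ne_of_ne hyx (Ne.symm hwy)] at hc2
                exact hc2 (hb _ _ _ hT hc1)
            by_cases hzy : z = y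
            · subst hzy
              by_cases hwx : w' = x
              · subst hwx; simp [Bool.xor_comm]
              · exfalso
                rw [Equiv.swap_apply_left, Equiv.swap_apply_of_ne_of_ne hxy' (Ne.symm hwx)] at hc2
                exact hc2 (hb _ _ _ (Ne.symm hc1) hT)
            by_cases hwx : w' = x
            · subst hwx
              exfalso
              rw [Equiv.swap_apply_right, Equiv.swap_apply_of_ne_of_ne (Ne.symm hzy) hyx] at hc2
              exact hc2 (hb _ _ _ (Ne.symm hT) hc1)
            by_cases hwy : w' = y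
            · subst hwy
              exfalso
              rw [Equiv.swap_apply_right, Equiv.swap_apply_of_ne_of_ne (Ne.symm hzx) hxy'] at hc2
              exact hc2 (hb _ _ _ (Ne.symm hc1) (Ne.symm hT))
            rw [Equiv.swap_apply_of_ne_of_ne hzx hzy, Equiv.swap_apply_of_ne_of_ne hwx hwy]
          have h1 := hhalf z w' hzw hT
          have h2 : ψ (sw z w' S₀) = 0 := hzero _ ((hT S₀ hzw).resolve_left hxy)
          rw [h2]; linarith
      have hxyterm : jterm x y ψ S₀ = ψ S₀ := by
        simp only [jterm, ne_eq, hxy, not_false_eq_true, if_true]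
        rw [havg0 x y (by intro T; simp [jkey, cnt_sw, sw_apply, Bool.xor_comm]), hanti]; ring
      have hyxterm : jterm y x ψ S₀ = ψ S₀ := by
        have : sw y x S₀ = sw x y S₀ := by ext c; simp [sw_apply, Equiv.swap_comm]
        simp only [jterm, ne_eq, Ne.symm hxy, not_false_eq_true, if_true]
        rw [havg0 y x (by intro T; simp [jkey, cnt_sw, sw_apply, Bool.xor_comm]), this, hanti]; ring
      have hsum : 2 * ψ S₀ ≤ jZ ψ S₀ := by
        have h1 : ∀ z w', jterm z w' ψ S₀ ≤ ∑ w'', jterm z w'' ψ S₀ := fun z w' =>
          single_le_sum (f := fun w'' => jterm z w'' ψ S₀) (fun i _ => hterm z i) (mem_univ _)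
        have h2 : ∑ z ∈ ({x, y} : Finset C), ∑ w'', jterm z w'' ψ S₀ ≤ jZ ψ S₀ :=
          sum_le_sum_of_subset_of_nonneg (subset_univ _)
            fun z _ _ => sum_nonneg fun i _ => hterm z i
        rw [sum_pair hxy'] at h2
        have := h1 x y
        have := h1 y x
        linarith
      rw [heig] at hsum
      nlinarith
    intro S
    have h1 := hle S
    have h2 := hge S
    have h3 : ψ S = 0 := by linarith
    simp only [hψ, Pi.sub_apply, Function.comp_apply] at h3
    linarith
  rw [← h0, avg_of_inv (inv_of_sw_inv w inv)]

end Crest.Agent.R299
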