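import Mathlib

/-!
Mixing of a lazy symmetric chain from a Poincaré inequality.
-/

set_option autoImplicit false
set_option linter.unusedSectionVars false

namespace Crest.Agent.R299

open Finset Matrix

variable {α : Type*} [Fintype α] [DecidableEq α]

lemma dirichlet_eq (K : Matrix α α ℝ) (Ω : Finset α) (hs : ∀ x y, K x y = K y x)
    (hr : ∀ x ∈ Ω, ∑ y ∈ Ω, K x y = 1) (f : α → ℝ) :
    ∑ x ∈ Ω, f x * (f x - ∑ y ∈ Ω, K x y * f y) =
      (1 / 2) * ∑ x ∈ Ω, ∑ y ∈ Ω, K x y * (f x - f y) ^ 2 := by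
  have h1 : ∑ x ∈ Ω, ∑ y ∈ Ω, K x y * f x ^ 2 = ∑ x ∈ Ω, f x ^ 2 :=
    sum_congr rfl fun x hx => by rw [← sum_mul, hr x hx, one_mul]
  have h2 : ∑ x ∈ Ω, ∑ y ∈ Ω, K x y * f y ^ 2 = ∑ x ∈ Ω, f x ^ 2 := by
    rw [sum_comm, ← h1]
    exact sum_congr rfl fun x _ => sum_congr rfl fun y _ => by rw [hs]
  have h3 : ∑ x ∈ Ω, ∑ y ∈ Ω, K x y * (f x - f y) ^ 2 =
      ∑ x ∈ Ω, ∑ y ∈ Ω, K x y * f x ^ 2 + ∑ x ∈ Ω, ∑ y ∈ Ω, K x y * f y ^ 2 -
        2 * ∑ x ∈ Ω, f x * ∑ y ∈ Ω, K x y * f y := by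
    simp only [mul_sum, ← sum_add_distrib, ← sum_sub_distrib]
    exact sum_congr rfl fun x _ => sum_congr rfl fun y _ => by ring
  rw [h3, h1, h2]
  simp only [mul_sub, sum_sub_distrib, ← sq]
  ring

lemma lazy_contract (K : Matrix α α ℝ) (hs : ∀ x y, K x y = K y x) (h0 : ∀ x y, 0 ≤ K x y)
    (hr : ∀ x, ∑ y, K x y = 1) (hl : ∀ x, 1 / 2 ≤ K x x) (h : α → ℝ) :
    ∑ x, (∑ y, K x y * h y) ^ 2 ≤ ∑ x, h x * ∑ y, K x y * h y := by
  set L : α → α → ℝ := fun x y => 2 * K x y - if x = y then 1 else 0 with hL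
  have hL0 : ∀ x y, 0 ≤ L x y := by
    intro x y; simp only [hL]
    split_ifs with hxy
    · rw [hxy]; linarith [hl y]
    · linarith [h0 x y]
  have hLr : ∀ x, ∑ y, L x y = 1 := by
    intro x; simp only [hL, sum_sub_distrib, ← mul_sum, hr]; simp; norm_num
  have hLs : ∀ x y, L x y = L y x := by
    intro x y; simp only [hL, hs x y, eq_comm]
  have hLh : ∀ x, ∑ y, L x y * h y = 2 * ∑ y, K x y * h y - h x := by
    intro x; simp only [hL, sub_mul, sum_sub_distrib, mul_assoc, ← mul_sum]; simp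
  have hJ : ∀ x, (∑ y, L x y * h y) ^ 2 ≤ ∑ y, L x y * h y ^ 2 := by
    intro x
    set m := ∑ y, L x y * h y with hm
    have h1 : 0 ≤ ∑ y, L x y * (h y - m) ^ 2 :=
      sum_nonneg fun y _ => mul_nonneg (hL0 x y) (sq_nonneg _)
    have h2 : ∑ y, L x y * (h y - m) ^ 2 =
        ∑ y, L x y * h y ^ 2 - 2 * m * ∑ y, L x y * h y + m ^ 2 * ∑ y, L x y := by
      simp only [mul_sum, ← sum_add_distrib, ← sum_sub_distrib]
      exact sum_congr rfl fun y _ => by ring
    rw [h2, hLr, ← hm] at h1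
    linarith
  have h1 : ∑ x, (∑ y, L x y * h y) ^ 2 ≤ ∑ y, h y ^ 2 := by
    refine (sum_le_sum fun x _ => hJ x).trans (le_of_eq ?_)
    rw [sum_comm]
    refine sum_congr rfl fun y _ => ?_
    rw [← sum_mul, sum_congr rfl fun x _ => hLs x y, hLr, one_mul]
  simp only [hLh] at h1
  have h2 : ∑ x, (2 * ∑ y, K x y * h y - h x) ^ 2 = 4 * ∑ x, (∑ y, K x y * h y) ^ 2 -
      4 * ∑ x, h x * ∑ y, K x y * h y + ∑ y, h y ^ 2 := by
    rw [mul_sum, mul_sum, ← sum_sub_distrib, ← sum_add_distrib]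
    exact sum_congr rfl fun y _ => by ring
  linarith

theorem mixing (K : Matrix α α ℝ) (Ω : Finset α) (hs : ∀ x y, K x y = K y x)
    (h0 : ∀ x y, 0 ≤ K x y) (hr : ∀ x, ∑ y, K x y = 1) (hl : ∀ x, 1 / 2 ≤ K x x)
    (hc : ∀ x ∈ Ω, ∀ y, y ∉ Ω → K x y = 0) (c : ℝ) (hc1 : 1 ≤ c)
    (hP : ∀ f : α → ℝ, (Ω.card : ℝ) * (∑ x ∈ Ω, f x ^ 2) - (∑ x ∈ Ω, f x) ^ 2 ≤
      c * Ω.card * ∑ x ∈ Ω, f x * (f x - ∑ y ∈ Ω, K x y * f y))
    (G : α) (hG : G ∈ Ω) (t : ℕ) :
    (∑ a, |(K ^ t) G a - if a ∈ Ω then 1 / (Ω.card : ℝ) else 0|) ^ 2 ≤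
      Ω.card * (1 - 1 / c) ^ t := by
  have hΩ : (0 : ℝ) < Ω.card := by exact_mod_cast card_pos.2 ⟨G, hG⟩
  have hrΩ : ∀ x ∈ Ω, ∑ y ∈ Ω, K x y = 1 := fun x hx => by
    rw [← hr x]; exact sum_subset (subset_univ _) fun y _ hy => hc x hx y hy
  set h : ℕ → α → ℝ := fun t a => (K ^ t) G a - if a ∈ Ω then 1 / (Ω.card : ℝ) else 0 with hh
  have hstep : ∀ t a, h (t + 1) a = ∑ y, K a y * h t y := by
    intro t a
    simp only [hh, pow_succ, Matrix.mul_apply, mul_sub, sum_sub_distrib]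
    congr 1
    · exact sum_congr rfl fun y _ => by rw [hs, mul_comm]
    · simp only [mul_ite, mul_zero, sum_ite_mem, univ_inter, ← sum_mul]
      split_ifs with ha
      · rw [hrΩ a ha, one_mul]
      · rw [sum_eq_zero fun y hy => by rw [hs]; exact hc y hy a ha, zero_mul]
  have hsupp : ∀ t a, a ∉ Ω → h t a = 0 := by
    intro t
    induction t with
    | zero =>
      intro a ha
      have : G ≠ a := fun h => ha (h ▸ hG)
      simp [hh, ha, this]
    | succ t ih =>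
      intro a ha
      rw [hstep]
      refine sum_eq_zero fun y _ => ?_
      by_cases hy : y ∈ Ω
      · rw [hs, hc y hy a ha, zero_mul]
      · rw [ih y hy, mul_zero]
  have hsum : ∀ t, ∑ a, h t a = 0 := by
    intro t
    induction t with
    | zero =>
      simp only [hh, pow_zero, sum_sub_distrib, Matrix.one_apply, sum_ite_eq, mem_univ, if_true,
        sum_ite_mem, univ_inter, sum_const, nsmul_eq_mul]
      field_simp; ring
    | succ t ih =>
      simp only [hstep]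
      rw [sum_comm, ← ih]
      refine sum_congr rfl fun y _ => ?_
      rw [← sum_mul, sum_congr rfl fun x _ => hs x y, hr, one_mul]
  have hc0 : 0 < c := by linarith
  have hq : 0 ≤ 1 - 1 / c := by rw [sub_nonneg, div_le_one hc0]; exact hc1
  have hsq : ∀ t, ∑ a, h t a ^ 2 ≤ (1 - 1 / c) ^ t := by
    intro t
    induction t with
    | zero =>
      have : ∑ a, h 0 a ^ 2 = ∑ a, ((if G = a then 1 else 0) - 2 * (if G = a then
          1 / (Ω.card : ℝ) else 0) + if a ∈ Ω then (1 / (Ω.card : ℝ)) ^ 2 else 0) := by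
        refine sum_congr rfl fun a _ => ?_
        simp only [hh, pow_zero, Matrix.one_apply]
        by_cases ha : G = a
        · simp only [← ha, hG, if_true]; ring
        · simp only [ha, if_false]; split_ifs <;> ring
      rw [this]
      simp only [sum_add_distrib, sum_sub_distrib, ← mul_sum, sum_ite_eq, mem_univ, if_true,
        sum_ite_mem, univ_inter, sum_const, nsmul_eq_mul, pow_zero]
      have h1 : (Ω.card : ℝ) * (1 / (Ω.card : ℝ)) ^ 2 = 1 / (Ω.card : ℝ) := by field_simp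
      have h2 : 0 < 1 / (Ω.card : ℝ) := by positivity
      linarith
    | succ t ih =>
      simp only [hstep]
      refine (lazy_contract K hs h0 hr hl (h t)).trans ?_
      have e1 : ∑ x ∈ Ω, h t x = 0 := by
        rw [← hsum t]; exact sum_subset (subset_univ _) fun y _ hy => hsupp t y hy
      have e2 : ∑ x ∈ Ω, h t x ^ 2 = ∑ x, h t x ^ 2 :=
        sum_subset (subset_univ _) fun y _ hy => by rw [hsupp t y hy]; ring
      have e3 : ∀ x, ∑ y ∈ Ω, K x y * h t y = ∑ y, K x y * h t y := fun x =>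
        sum_subset (subset_univ _) fun y _ hy => by rw [hsupp t y hy]; ring
      have e4 : ∑ x ∈ Ω, h t x * (h t x - ∑ y ∈ Ω, K x y * h t y) =
          ∑ x, h t x ^ 2 - ∑ x, h t x * ∑ y, K x y * h t y := by
        rw [← sum_sub_distrib, ← sum_subset (subset_univ Ω)
          fun y _ hy => by rw [hsupp t y hy]; ring]
        exact sum_congr rfl fun x _ => by rw [e3]; ring
      have h1 := hP (h t)
      rw [e1, e2, e4] at h1
      have h2 : ∑ x, h t x ^ 2 ≤ c * (∑ x, h t x ^ 2 - ∑ x, h t x * ∑ y, K x y * h t y) := by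
        refine le_of_mul_le_mul_left ?_ hΩ
        linarith
      have h3 : ∑ x, h t x * ∑ y, K x y * h t y ≤ (1 - 1 / c) * ∑ x, h t x ^ 2 := by
        rw [sub_mul, one_mul, one_div, ← div_eq_inv_mul, le_sub_comm, div_le_iff₀ hc0]
        linarith
      refine h3.trans ?_
      rw [pow_succ']
      exact mul_le_mul_of_nonneg_left ih hq
  calc (∑ a, |h t a|) ^ 2 = (∑ a ∈ Ω, |h t a|) ^ 2 := by
        rw [sum_subset (subset_univ Ω) fun y _ hy => by rw [hsupp t y hy, abs_zero]]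
    _ ≤ Ω.card * ∑ a ∈ Ω, |h t a| ^ 2 := sq_sum_le_card_mul_sum_sq
    _ ≤ Ω.card * ∑ a, h t a ^ 2 := by
        simp only [sq_abs]
        exact mul_le_mul_of_nonneg_left
          (sum_le_sum_of_subset_of_nonneg (subset_univ _) fun _ _ _ => sq_nonneg _) hΩ.le
    _ ≤ _ := mul_le_mul_of_nonneg_left (hsq t) hΩ.le

end Crest.Agent.R299
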