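import Crest.Prelude.Def_SwitchChain
import Crest.Agent.R299.Gap
import Crest.Agent.R299.Mix

/-!
Properties of the switch kernel and the comparison with the switch involutions.
-/

set_option autoImplicit false
set_option linter.unusedSectionVars false
set_option linter.unusedVariables false

namespace Crest.Agent.R299

open Finset Matrix Crest.SwitchChain

variable {n : ℕ}

/-- The edge with endpoints `a ≠ b`. -/
def mkE (a b : Fin n) (h : a ≠ b) : Edge n := ⟨s(a, b), by simpa using h⟩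

lemma mem_mkE {a b v : Fin n} (h : a ≠ b) : v ∈ (mkE a b h).1 ↔ v = a ∨ v = b := by
  simp [mkE]

lemma mkE_eq_iff {a b c d : Fin n} (h : a ≠ b) (h' : c ≠ d) :
    mkE a b h = mkE c d h' ↔ (a = c ∧ b = d) ∨ (a = d ∧ b = c) := by
  simp [mkE, Subtype.ext_iff]

lemma mkE_comm {a b : Fin n} (h : a ≠ b) : mkE a b h = mkE b a h.symm := by
  simp [mkE_eq_iff]

lemma exists_mkE (e : Edge n) : ∃ a b h, e = mkE a b h := by
  obtain ⟨e, he⟩ := e
  induction e using Sym2.ind with
  | _ a b => exact ⟨a, b, by simpa using he, rfl⟩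

lemma exists_mkE_of_mem {e : Edge n} {a : Fin n} (h : a ∈ e.1) : ∃ b h, e = mkE a b h := by
  obtain ⟨e, he⟩ := e
  obtain ⟨b, rfl⟩ := Sym2.mem_iff_exists.1 h
  exact ⟨b, by simpa using he, rfl⟩

lemma mem_pmSet {S : Finset (Fin n)} {F : Finset (Edge n)} : F ∈ pmSet S ↔ F.card = 2 ∧
    (∀ e ∈ F, ∀ v : Fin n, v ∈ e.1 → v ∈ S) ∧ ∀ v ∈ S, deg F v = 1 := by
  simp [pmSet, deg]

lemma pm_mem {a b c d : Fin n} (hab : a ≠ b) (hac : a ≠ c) (had : a ≠ d) (hbc : b ≠ c)
    (hbd : b ≠ d) (hcd : c ≠ d) {S : Finset (Fin n)}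
    (hS : ∀ v, v ∈ S ↔ v = a ∨ v = b ∨ v = c ∨ v = d) :
    ({mkE a b hab, mkE c d hcd} : Finset (Edge n)) ∈ pmSet S := by
  rw [mem_pmSet]
  refine ⟨card_pair (by simp [mkE_eq_iff, hac, had]), ?_, ?_⟩
  · intro e he v hv
    simp only [mem_insert, mem_singleton] at he
    rw [hS]
    rcases he with rfl | rfl <;> rw [mem_mkE] at hv <;> tauto
  · intro v hv
    rw [hS] at hv
    simp only [deg, filter_insert, filter_singleton, mem_mkE]
    rcases hv with rfl | rfl | rfl | rfl <;>
      simp [hab, hac, had, hbc, hbd, hcd, hab.symm, hac.symm, had.symm, hbc.symm, hbd.symm,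
        hcd.symm]

lemma pm_other {a b c d : Fin n} (hcd : c ≠ d) {e : Edge n}
    (hS : ∀ v, v ∈ e.1 → v = a ∨ v = b ∨ v = c ∨ v = d) (ha : a ∉ e.1) (hb : b ∉ e.1) :
    e = mkE c d hcd := by
  obtain ⟨p, q, hpq, rfl⟩ := exists_mkE e
  have h1 := hS p ((mem_mkE hpq).2 (Or.inl rfl))
  have h2 := hS q ((mem_mkE hpq).2 (Or.inr rfl))
  rw [mem_mkE, not_or] at ha hb
  rw [mkE_eq_iff]
  rcases h1 with rfl | rfl | rfl | rfl <;> rcases h2 with rfl | rfl | rfl | rfl <;>
    first | exact (hpq rfl).elim | simp_all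

lemma card_pmSet {S : Finset (Fin n)} (hS : S.card = 4) : (pmSet S).card = 3 := by
  obtain ⟨a, b, c, d, hab, hac, had, hbc, hbd, hcd, rfl⟩ := card_eq_four.1 hS
  have : pmSet ({a, b, c, d} : Finset (Fin n)) =
      {{mkE a b hab, mkE c d hcd}, {mkE a c hac, mkE b d hbd}, {mkE a d had, mkE b c hbc}} := by
    ext F
    simp only [mem_insert, mem_singleton]
    constructor
    · intro hF
      obtain ⟨h1, h2, h3⟩ := mem_pmSet.1 hF
      obtain ⟨e₁, e₂, h12, ha1, rfl⟩ : ∃ e₁ e₂ : Edge n, e₁ ≠ e₂ ∧ a ∈ e₁.1 ∧ F = {e₁, e₂} := by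
        obtain ⟨e₁, e₂, h12, rfl⟩ := card_eq_two.1 h1
        have := h3 a (by simp)
        by_cases ha : a ∈ e₁.1
        · exact ⟨e₁, e₂, h12, ha, rfl⟩
        · refine ⟨e₂, e₁, h12.symm, ?_, pair_comm _ _⟩
          by_contra ha'
          simp [deg, filter_insert, filter_singleton, ha, ha'] at this
      have hnot : ∀ v, v ∈ e₁.1 → v ∉ e₂.1 := by
        intro v hv hv'
        have := h3 v (h2 e₁ (by simp) v hv)
        simp only [deg, filter_insert, filter_singleton, hv, hv', if_true] at this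
        rw [card_pair h12] at this
        omega
      obtain ⟨q, haq, rfl⟩ := exists_mkE_of_mem ha1
      have hq := h2 _ (mem_insert_self _ _) q ((mem_mkE haq).2 (Or.inr rfl))
      have ha2 := hnot a ha1
      have hq2 := hnot q ((mem_mkE haq).2 (Or.inr rfl))
      have hS2 := h2 e₂ (by simp)
      simp only [mem_insert, mem_singleton] at hq hS2
      rcases hq with rfl | rfl | rfl | rfl
      · exact (haq rfl).elim
      · left; rw [pm_other hcd hS2 ha2 hq2]
      · right; left; rw [pm_other hbd (fun v hv => by have := hS2 v hv; tauto) ha2 hq2]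
      · right; right; rw [pm_other hbc (fun v hv => by have := hS2 v hv; tauto) ha2 hq2]
    · rintro (rfl | rfl | rfl)
      · exact pm_mem hab hac had hbc hbd hcd (by simp)
      · exact pm_mem hac hab had hbc.symm hcd hbd (by simp; tauto)
      · exact pm_mem had hab hac hbd.symm hcd.symm hbc (by simp; tauto)
  rw [this, card_eq_three]
  refine ⟨_, _, _, ?_, ?_, ?_, rfl⟩
  · intro h
    have : mkE a b hab ∈ ({mkE a c hac, mkE b d hbd} : Finset (Edge n)) := by rw [← h]; simp
    simp [mkE_eq_iff, hab, hac, had, hbc, hbd] at this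
  · intro h
    have : mkE a b hab ∈ ({mkE a d had, mkE b c hbc} : Finset (Edge n)) := by rw [← h]; simp
    simp [mkE_eq_iff, hab, hac, had, hbc, hbd] at this
  · intro h
    have : mkE a c hac ∈ ({mkE a d had, mkE b c hbc} : Finset (Edge n)) := by rw [← h]; simp
    simp [mkE_eq_iff, hab, hac, had, hcd] at this

lemma deg_pm {S : Finset (Fin n)} {F : Finset (Edge n)} (hF : F ∈ pmSet S) (v : Fin n) :
    deg F v = if v ∈ S then 1 else 0 := by
  obtain ⟨h1, h2, h3⟩ := mem_pmSet.1 hF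
  split_ifs with hv
  · exact h3 v hv
  · rw [deg, card_eq_zero, filter_eq_empty_iff]
    exact fun e he hve => hv (h2 e he v hve)

lemma deg_switchResult {S : Finset (Fin n)} {F F' : Finset (Edge n)} (hF : F ∈ pmSet S)
    (hF' : F' ∈ pmSet S) (E : Finset (Edge n)) (v : Fin n) :
    deg (switchResult E F F') v = deg E v := by
  unfold switchResult
  split_ifs with h
  · have h1 := deg_pm hF v
    have h2 := deg_pm hF' v
    have h3 : deg (E \ F ∪ F') v = deg (E \ F) v + deg F' v := by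
      unfold deg
      rw [filter_union, card_union_of_disjoint]
      exact disjoint_filter_filter (h.2.symm.mono_left sdiff_subset)
    have h4 : deg E v = deg (E \ F) v + deg F v := by
      unfold deg
      conv_lhs => rw [← sdiff_union_of_subset h.1]
      rw [filter_union, card_union_of_disjoint]
      exact disjoint_filter_filter sdiff_disjoint
    omega
  · rfl

lemma switchResult_symm {E E' F F' : Finset (Edge n)} (hne : E ≠ E')
    (h : switchResult E F F' = E') : switchResult E' F' F = E := by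
  unfold switchResult at h ⊢
  split_ifs at h with h1
  · subst h
    have h2 : Disjoint F F' := (h1.2.mono_right h1.1).symm
    rw [if_pos ⟨subset_union_right, disjoint_union_right.2 ⟨disjoint_sdiff, h2⟩⟩]
    ext e
    have a1 := @h1.1 e
    have a2 : e ∈ F' → e ∉ E := fun h => disjoint_left.1 h1.2 h
    simp only [mem_union, mem_sdiff]
    tauto
  · exact (hne h).elim

lemma proposalCount_symm (E E' : Finset (Edge n)) : proposalCount E E' = proposalCount E' E := by
  by_cases hne : E = E'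
  · rw [hne]
  unfold proposalCount
  refine sum_congr rfl fun S _ => ?_
  rw [sum_comm' (t' := pmSet S) (s' := fun F' => (pmSet S).erase F')
    (by intro F F'; simp only [mem_erase]; tauto)]
  refine sum_congr rfl fun F _ => sum_congr rfl fun F' _ => ?_
  exact if_congr ⟨switchResult_symm hne, switchResult_symm (Ne.symm hne)⟩ rfl rfl

lemma sum_proposalCount (E : Finset (Edge n)) : ∑ E', proposalCount E E' = 6 * n.choose 4 := by
  unfold proposalCount
  rw [sum_comm]
  have : ∀ S ∈ (univ : Finset (Fin n)).powersetCard 4, ∑ E', ∑ F ∈ pmSet S,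
      ∑ F' ∈ (pmSet S).erase F, (if switchResult E F F' = E' then 1 else 0) = 6 := by
    intro S hS
    have h3 := card_pmSet (mem_powersetCard.1 hS).2
    rw [sum_comm]
    have : ∀ F ∈ pmSet S, ∑ E', ∑ F' ∈ (pmSet S).erase F,
        (if switchResult E F F' = E' then 1 else 0) = 2 := by
      intro F hF
      rw [sum_comm]
      simp [card_erase_of_mem hF, h3]
    rw [sum_congr rfl this]
    simp [h3]
  rw [sum_congr rfl this]
  simp [card_powersetCard, mul_comm]

lemma proposalCount_eq_zero {E E' : Finset (Edge n)} (h : deg E ≠ deg E') :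
    proposalCount E E' = 0 := by
  unfold proposalCount
  refine sum_eq_zero fun S _ => sum_eq_zero fun F hF => sum_eq_zero fun F' hF' => if_neg ?_
  rintro rfl
  exact h (funext fun v => (deg_switchResult hF (mem_erase.1 hF').2 E v).symm)

lemma kernel_symm (E E' : Finset (Edge n)) : kernel n E E' = kernel n E' E := by
  simp only [kernel, proposalCount_symm E E', eq_comm]

lemma kernel_nonneg (E E' : Finset (Edge n)) : 0 ≤ kernel n E E' := by
  unfold kernel; split_ifs <;> positivity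

lemma kernel_lazy (E : Finset (Edge n)) : 1 / 2 ≤ kernel n E E := by
  simp only [kernel, if_true, le_add_iff_nonneg_right]; positivity

lemma kernel_row (hn : 4 ≤ n) (E : Finset (Edge n)) : ∑ E', kernel n E E' = 1 := by
  have hC : (0 : ℝ) < n.choose 4 := by exact_mod_cast Nat.choose_pos hn
  simp only [kernel, sum_add_distrib, sum_ite_eq, mem_univ, if_true, ← sum_div]
  rw [← Nat.cast_sum, sum_proposalCount]
  push_cast
  field_simp
  norm_num

lemma mem_realizations {d : Fin n → ℕ} {E : Finset (Edge n)} :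
    E ∈ realizations d ↔ deg E = d := by
  simp [realizations, funext_iff]

lemma kernel_closed {d : Fin n → ℕ} (E : Finset (Edge n)) (hE : E ∈ realizations d)
    (E' : Finset (Edge n)) (hE' : E' ∉ realizations d) : kernel n E E' = 0 := by
  rw [mem_realizations] at hE hE'
  have h : deg E ≠ deg E' := fun h => hE' (h.symm.trans hE)
  have h' : E ≠ E' := fun h' => h (by rw [h'])
  simp [kernel, proposalCount_eq_zero h, h']

/-- The edge set of a graph. -/
def ofGr (G : Gr (Fin n)) : Finset (Edge n) :=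
  univ.filter fun e => ∀ i j, e.1 = s(i, j) → G.adj i j = true

lemma mem_ofGr {G : Gr (Fin n)} {a b : Fin n} (h : a ≠ b) : mkE a b h ∈ ofGr G ↔ G.adj a b = true := by
  simp only [ofGr, mem_filter, mem_univ, true_and, mkE]
  refine ⟨fun h => h a b rfl, fun h i j hij => ?_⟩
  rcases Sym2.eq_iff.1 hij with ⟨rfl, rfl⟩ | ⟨rfl, rfl⟩
  · exact h
  · rw [G.symm]; exact h

lemma ofGr_bijective : Function.Bijective (ofGr (n := n)) := by
  constructor
  · intro G G' h
    refine Gr.ext' fun i j => ?_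
    by_cases hij : i = j
    · rw [hij, G.irr, G'.irr]
    · rw [Bool.eq_iff_iff, ← mem_ofGr hij, ← mem_ofGr hij, h]
  · intro E
    refine ⟨⟨fun i j => decide (∃ h : i ≠ j, mkE i j h ∈ E), fun i j => ?_, fun i => by simp⟩, ?_⟩
    · rw [decide_eq_decide]
      exact ⟨fun ⟨h, h'⟩ => ⟨h.symm, mkE_comm h ▸ h'⟩, fun ⟨h, h'⟩ => ⟨h.symm, mkE_comm h ▸ h'⟩⟩
    · ext e
      obtain ⟨a, b, h, rfl⟩ := exists_mkE e
      rw [mem_ofGr]
      simp [h]

lemma deg_ofGr (G : Gr (Fin n)) (v : Fin n) : (deg (ofGr G) v : ℤ) = gdeg G v := by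
  rw [gdeg, sum_bz_cnt, deg, cnt]
  congr 1
  symm
  have hne : ∀ j, G.adj v j = true → v ≠ j := fun j hj h => by
    rw [← h, G.irr] at hj; exact Bool.false_ne_true hj
  refine card_bij (fun j hj => mkE v j (hne j (mem_filter.1 hj).2)) ?_ ?_ ?_
  · intro j hj
    rw [mem_filter, mem_ofGr, mem_mkE]
    exact ⟨(mem_filter.1 hj).2, Or.inl rfl⟩
  · intro j hj k hk h
    rw [mkE_eq_iff] at h
    rcases h with h | h
    · exact h.2
    · exact h.2.trans h.1
  · intro e he
    rw [mem_filter] at he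
    obtain ⟨b, hb, rfl⟩ := exists_mkE_of_mem he.2
    exact ⟨b, mem_filter.2 ⟨mem_univ _, (mem_ofGr hb).1 he.1⟩, rfl⟩

lemma rsw_comm {V : Type*} [Fintype V] [DecidableEq V] (u v x y : V) (G : Gr V) :
    rsw u v x y G = rsw u v y x G := by
  unfold rsw
  congr 1
  ext i j
  tauto

lemma proposalCount_pos_aux {u v x y : Fin n} {G : Gr (Fin n)} (h : Sw u v x y G)
    (hux : G.adj u x = true) : 1 ≤ proposalCount (ofGr G) (ofGr (rsw u v x y G)) := by
  obtain ⟨h0, h1, h2, h3⟩ := h
  have hvx : G.adj v x = false := by revert h1; rw [hux]; cases G.adj v x <;> simp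
  have huy : G.adj u y = false := by revert h3; rw [hux]; cases G.adj u y <;> simp
  have hvy : G.adj v y = true := by revert h2; rw [huy]; cases G.adj v y <;> simp
  have hS : ({u, v, x, y} : Finset (Fin n)) ∈ (univ : Finset (Fin n)).powersetCard 4 :=
    mem_powersetCard.2 ⟨subset_univ _,
      card_eq_four.2 ⟨u, v, x, y, h0.uv, h0.ux, h0.uy, h0.vx, h0.vy, h0.xy, rfl⟩⟩
  have hF : ({mkE u x h0.ux, mkE v y h0.vy} : Finset (Edge n)) ∈ pmSet {u, v, x, y} :=
    pm_mem h0.ux h0.uv h0.uy h0.vx.symm h0.xy h0.vy (by simp; tauto)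
  have hF' : ({mkE u y h0.uy, mkE v x h0.vx} : Finset (Edge n)) ∈ pmSet {u, v, x, y} :=
    pm_mem h0.uy h0.uv h0.ux h0.vy.symm h0.xy.symm h0.vx (by simp; tauto)
  have hne : ({mkE u y h0.uy, mkE v x h0.vx} : Finset (Edge n)) ≠
      {mkE u x h0.ux, mkE v y h0.vy} := by
    intro h
    have : mkE u y h0.uy ∈ ({mkE u x h0.ux, mkE v y h0.vy} : Finset (Edge n)) := by
      rw [← h]; simp
    simp [mkE_eq_iff, h0.uv, h0.ux, h0.uy, h0.xy.symm] at this
  have hsr : switchResult (ofGr G) {mkE u x h0.ux, mkE v y h0.vy} {mkE u y h0.uy, mkE v x h0.vx} =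
      ofGr (rsw u v x y G) := by
    unfold switchResult
    rw [if_pos ⟨by simp [insert_subset_iff, mem_ofGr, hux, hvy],
      by simp [mem_ofGr, huy, hvx]⟩]
    obtain ⟨G', hG'⟩ := ofGr_bijective.2 (ofGr G \ {mkE u x h0.ux, mkE v y h0.vy} ∪
      {mkE u y h0.uy, mkE v x h0.vx})
    have key : ∀ i j (h : i ≠ j), G'.adj i j = true ↔ (G.adj i j = true ∧
        ¬(mkE i j h = mkE u x h0.ux ∨ mkE i j h = mkE v y h0.vy)) ∨
        (mkE i j h = mkE u y h0.uy ∨ mkE i j h = mkE v x h0.vx) := by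
      intro i j h
      rw [← mem_ofGr h, hG']
      simp only [mem_union, mem_sdiff, mem_ofGr, mem_insert, mem_singleton]
    rw [← hG']
    congr 1
    refine ext_block h0 (fun i j a b c d => ?_) (fun i j a b c d => ?_) ?_ ?_ ?_ ?_
    · rw [rsw_off1 _ a b c d]
      by_cases hij : i = j
      · rw [hij, G.irr, G'.irr]
      · rw [Bool.eq_iff_iff, key i j hij]; simp [mkE_eq_iff, a, b, c, d]
    · rw [rsw_off2 _ a b c d]
      by_cases hij : i = j
      · rw [hij, G.irr, G'.irr]
      · rw [Bool.eq_iff_iff, key i j hij]; simp [mkE_eq_iff, a, b, c, d]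
    · rw [rsw_ux h0, Bool.eq_iff_iff, key u x h0.ux]
      simp [mkE_eq_iff, hvx, h0.uv, h0.ux, h0.uy, h0.xy]
    · rw [rsw_uy h0, Bool.eq_iff_iff, key u y h0.uy]
      simp [hvy]
    · rw [rsw_vx h0, Bool.eq_iff_iff, key v x h0.vx]
      simp [hux]
    · rw [rsw_vy h0, Bool.eq_iff_iff, key v y h0.vy]
      simp [mkE_eq_iff, huy, h0.uv.symm, h0.vx, h0.vy, h0.xy.symm]
  unfold proposalCount
  refine le_trans ?_ (single_le_sum (f := fun S => ∑ F ∈ pmSet S, ∑ F' ∈ (pmSet S).erase F,
    if switchResult (ofGr G) F F' = ofGr (rsw u v x y G) then 1 else 0)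
    (fun _ _ => Nat.zero_le _) hS)
  refine le_trans ?_ (single_le_sum (f := fun F => ∑ F' ∈ (pmSet {u, v, x, y}).erase F,
    if switchResult (ofGr G) F F' = ofGr (rsw u v x y G) then 1 else 0)
    (fun _ _ => Nat.zero_le _) hF)
  refine le_trans ?_ (single_le_sum (f := fun F' =>
    if switchResult (ofGr G) {mkE u x h0.ux, mkE v y h0.vy} F' = ofGr (rsw u v x y G) then 1 else 0)
    (fun _ _ => Nat.zero_le _) (mem_erase.2 ⟨hne, hF'⟩))
  simp [hsr]

lemma proposalCount_pos {u v x y : Fin n} {G : Gr (Fin n)} (h : Sw u v x y G) :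
    1 ≤ proposalCount (ofGr G) (ofGr (rsw u v x y G)) := by
  cases hux : G.adj u x
  · obtain ⟨h0, h1, h2, h3⟩ := h
    rw [rsw_comm]
    refine proposalCount_pos_aux ⟨⟨h0.uv, h0.xy.symm, h0.uy, h0.ux, h0.vy, h0.vx⟩, h2, h1,
      h3.symm⟩ ?_
    revert h3; rw [hux]; cases G.adj u y <;> simp
  · exact proposalCount_pos_aux h hux

attribute [local instance] Classical.propDecidable

lemma mult_le {G G' : Gr (Fin n)} (hne : G ≠ G') :
    (univ.filter fun q : Fin n × Fin n × Fin n × Fin n =>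
      tau q.1 q.2.1 q.2.2.1 q.2.2.2 G = G').card ≤ 256 * proposalCount (ofGr G) (ofGr G') := by
  have hsw : ∀ u v x y, tau u v x y G = G' → Sw u v x y G ∧ rsw u v x y G = G' := by
    intro u v x y h
    rw [tau_apply] at h
    split_ifs at h with h1
    · exact ⟨h1, h⟩
    · exact (hne h).elim
  rcases (univ.filter fun q : Fin n × Fin n × Fin n × Fin n =>
      tau q.1 q.2.1 q.2.2.1 q.2.2.2 G = G').eq_empty_or_nonempty with h | ⟨⟨a, b, c, d⟩, hq⟩
  · rw [h]; simp
  obtain ⟨h1, h2⟩ := hsw a b c d (mem_filter.1 hq).2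
  have h3 := proposalCount_pos h1
  rw [h2] at h3
  set S : Finset (Fin n) := {a, b, c, d} with hS
  have hS4 : S.card ≤ 4 := card_le_four
  have hmem : ∀ i j, G'.adj i j ≠ G.adj i j → i ∈ S := by
    intro i j h
    by_contra hi
    simp only [hS, mem_insert, mem_singleton, not_or] at hi
    exact h (by rw [← h2, rsw_off3 _ hi.1 hi.2.1 hi.2.2.1 hi.2.2.2])
  have hsub : (univ.filter fun q : Fin n × Fin n × Fin n × Fin n =>
      tau q.1 q.2.1 q.2.2.1 q.2.2.2 G = G') ⊆ S ×ˢ S ×ˢ S ×ˢ S := by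
    rintro ⟨u, v, x, y⟩ hq
    obtain ⟨⟨k0, k1, k2, k3⟩, k4⟩ := hsw u v x y (mem_filter.1 hq).2
    simp only [mem_product]
    refine ⟨hmem u x ?_, hmem v x ?_, hmem x u ?_, hmem y u ?_⟩
    · rw [← k4, rsw_ux k0]; exact k1.symm
    · rw [← k4, rsw_vx k0]; exact k1
    · rw [← k4, Gr.symm, rsw_ux k0, G.symm x u]; exact k1.symm
    · rw [← k4, Gr.symm, rsw_uy k0, G.symm y u]; exact k2.symm
  have h4 := card_le_card hsub
  simp only [card_product] at h4
  calc _ ≤ S.card * (S.card * (S.card * S.card)) := h4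
    _ ≤ 4 * (4 * (4 * 4)) := by gcongr
    _ ≤ _ := by omega

theorem poincare_kernel (hn : 4 ≤ n) (d : Fin n → ℕ) (f : Finset (Edge n) → ℝ) :
    ((realizations d).card : ℝ) * (∑ G ∈ realizations d, f G ^ 2) -
        (∑ G ∈ realizations d, f G) ^ 2 ≤
      24 * (n : ℝ) ^ 2 * (n.choose 4 : ℝ) * (realizations d).card *
        ∑ G ∈ realizations d, f G * (f G - ∑ G' ∈ realizations d, kernel n G G' * f G') := by
  set Ω := realizations d with hΩ
  rcases Ω.eq_empty_or_nonempty with h0 | hne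
  · simp [h0]
  have hΩ0 : (0 : ℝ) < Ω.card := by exact_mod_cast card_pos.2 hne
  have hC : (0 : ℝ) < n.choose 4 := by exact_mod_cast Nat.choose_pos hn
  rw [dirichlet_eq (kernel n) Ω kernel_symm (fun E hE => by
    rw [← kernel_row hn E]
    exact sum_subset (subset_univ _) fun E' _ hE' => kernel_closed E hE E' hE')]
  set e := Equiv.ofBijective _ (ofGr_bijective (n := n)) with he
  set F : Finset (Edge n) → ℝ := fun E => if E ∈ Ω then f E else 0 with hF
  set g : Gr (Fin n) → ℝ := fun G => F (ofGr G) with hg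
  have hdeg : ∀ G G' : Gr (Fin n), gdeg G = gdeg G' ↔ deg (ofGr G) = deg (ofGr G') := by
    intro G G'
    simp only [funext_iff, ← deg_ofGr, Nat.cast_inj]
  have hsum : ∀ φ : Finset (Edge n) → ℝ, ∑ G : Gr (Fin n), φ (ofGr G) = ∑ E, φ E :=
    fun φ => Equiv.sum_comp e φ
  have h1 : g ⬝ᵥ (g - avg gdeg g) =
      ∑ E ∈ Ω, f E ^ 2 - (∑ E ∈ Ω, f E) ^ 2 / Ω.card := by
    have a1 : ∀ G, ofGr G ∈ Ω → avg gdeg g G = (∑ E ∈ Ω, f E) / Ω.card := by
      intro G hG
      have : (cls gdeg G).image ofGr = Ω := by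
        ext E
        obtain ⟨G', rfl⟩ := ofGr_bijective.2 E
        rw [ofGr_bijective.1.mem_finset_image, mem_cls, hdeg, hΩ, mem_realizations,
          mem_realizations.1 hG]
      rw [avg_apply]
      conv_rhs => rw [← this]
      rw [sum_image (fun a _ b _ h => ofGr_bijective.1 h),
        card_image_of_injective _ ofGr_bijective.1]
      congr 1
      refine sum_congr rfl fun G' hG' => ?_
      simp only [hg, hF]
      rw [if_pos (this ▸ mem_image_of_mem _ hG')]
    have a2 : ∀ G, g G * (g - avg gdeg g) G =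
        (fun E => if E ∈ Ω then f E ^ 2 - f E * ((∑ E ∈ Ω, f E) / Ω.card) else 0) (ofGr G) := by
      intro G
      by_cases hG : ofGr G ∈ Ω
      · rw [Pi.sub_apply, a1 G hG]; simp only [hg, hF, hG, if_true]; ring
      · simp only [hg, hF, hG, if_false, zero_mul]
    rw [dotProduct, sum_congr rfl fun G _ => a2 G]
    refine (hsum fun E =>
      if E ∈ Ω then f E ^ 2 - f E * ((∑ E ∈ Ω, f E) / Ω.card) else 0).trans ?_
    rw [sum_ite_mem, univ_inter, sum_sub_distrib, ← sum_mul]
    ring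
  have h2 : ∀ u v x y, dir u v x y g = (1 / 2) * ∑ G, (g G - g (tau u v x y G)) ^ 2 := by
    intro u v x y
    have a1 := dot_comp_invol (tau u v x y) (tau_tau u v x y) (g ∘ tau u v x y) g
    have a2 : (g ∘ tau u v x y) ∘ tau u v x y = g := by ext G; simp [tau_tau]
    rw [a2] at a1
    have a3 : ∑ G, (g G - g (tau u v x y G)) ^ 2 =
        (g - g ∘ tau u v x y) ⬝ᵥ (g - g ∘ tau u v x y) := by
      simp only [dotProduct, sq, Pi.sub_apply, Function.comp_apply]
    rw [a3, dir]
    simp only [dotProduct_sub, sub_dotProduct, a1, dotProduct_comm (g ∘ tau u v x y) g]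
    ring
  have h3 : ∑ u, ∑ v, ∑ x, ∑ y, ∑ G, (g G - g (tau u v x y G)) ^ 2 ≤
      256 * ∑ E ∈ Ω, ∑ E' ∈ Ω, (proposalCount E E' : ℝ) * (f E - f E') ^ 2 := by
    have a1 : ∑ u, ∑ v, ∑ x, ∑ y, ∑ G, (g G - g (tau u v x y G)) ^ 2 =
        ∑ G, ∑ q : Fin n × Fin n × Fin n × Fin n,
          (g G - g (tau q.1 q.2.1 q.2.2.1 q.2.2.2 G)) ^ 2 := by
      rw [sum_comm (s := (univ : Finset (Gr (Fin n))))]
      simp only [Fintype.sum_prod_type]
    have a2 : ∀ G, ∑ q : Fin n × Fin n × Fin n × Fin n,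
        (g G - g (tau q.1 q.2.1 q.2.2.1 q.2.2.2 G)) ^ 2 ≤
        ∑ G', 256 * ((proposalCount (ofGr G) (ofGr G') : ℝ) * (g G - g G') ^ 2) := by
      intro G
      rw [← sum_fiberwise (s := univ)
        (g := fun q : Fin n × Fin n × Fin n × Fin n => tau q.1 q.2.1 q.2.2.1 q.2.2.2 G)]
      refine sum_le_sum fun G' _ => ?_
      rw [sum_congr rfl (g := fun _ => (g G - g G') ^ 2)
        (fun q hq => by rw [(mem_filter.1 hq).2]), sum_const, nsmul_eq_mul]
      by_cases hGG : G = G'
      · simp [hGG]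
      · rw [← mul_assoc]
        refine mul_le_mul_of_nonneg_right ?_ (sq_nonneg _)
        exact_mod_cast mult_le hGG
    rw [a1]
    refine (sum_le_sum fun G _ => a2 G).trans (le_of_eq ?_)
    simp only [← mul_sum]
    congr 1
    have a3 : ∀ E : Finset (Edge n), ∑ G' : Gr (Fin n),
        (proposalCount E (ofGr G') : ℝ) * (F E - F (ofGr G')) ^ 2 =
        ∑ E', (proposalCount E E' : ℝ) * (F E - F E') ^ 2 :=
      fun E => hsum fun E' => (proposalCount E E' : ℝ) * (F E - F E') ^ 2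
    simp only [hg, a3]
    rw [hsum fun E => ∑ E', (proposalCount E E' : ℝ) * (F E - F E') ^ 2]
    have a4 : ∀ E ∈ Ω, ∀ E', E' ∉ Ω → proposalCount E E' = 0 := fun E hE E' hE' =>
      proposalCount_eq_zero fun h => hE' (mem_realizations.2 (h.symm.trans (mem_realizations.1 hE)))
    rw [← sum_subset (subset_univ Ω) (fun E _ hE => sum_eq_zero fun E' _ => by
      by_cases hE' : E' ∈ Ω
      · rw [proposalCount_symm, a4 E' hE' E hE]; simp
      · simp [hF, hE, hE'])]
    refine sum_congr rfl fun E hE => ?_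
    rw [← sum_subset (subset_univ Ω) (fun E' _ hE' => by rw [a4 E hE E' hE']; simp)]
    refine sum_congr rfl fun E' hE' => ?_
    simp only [hF, hE, hE', if_true]
  have h4 : ∑ E ∈ Ω, ∑ E' ∈ Ω, (proposalCount E E' : ℝ) * (f E - f E') ^ 2 =
      12 * (n.choose 4 : ℝ) * ∑ E ∈ Ω, ∑ E' ∈ Ω, kernel n E E' * (f E - f E') ^ 2 := by
    simp only [mul_sum]
    refine sum_congr rfl fun E _ => sum_congr rfl fun E' _ => ?_
    by_cases hEE : E = E'
    · simp [hEE]
    · simp only [kernel, hEE, if_false, zero_add]; field_simp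
  have h5 := poincare_switch g
  simp only [h2, ← mul_sum] at h5
  rw [h1] at h5
  rw [h4] at h3
  set D := ∑ E ∈ Ω, ∑ E' ∈ Ω, kernel n E E' * (f E - f E') ^ 2 with hD
  have hD0 : 0 ≤ D := sum_nonneg fun E _ => sum_nonneg fun E' _ =>
    mul_nonneg (kernel_nonneg E E') (sq_nonneg _)
  have h6 : ∑ E ∈ Ω, f E ^ 2 - (∑ E ∈ Ω, f E) ^ 2 / Ω.card ≤ 16 * (12 * (n.choose 4 : ℝ) * D) := by
    linarith
  have h7 : (16 : ℝ) ≤ (n : ℝ) ^ 2 := by
    have : (4 : ℝ) ≤ n := by exact_mod_cast hn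
    nlinarith
  have h8 : 16 * (12 * (n.choose 4 : ℝ) * D) ≤ (n : ℝ) ^ 2 * (12 * (n.choose 4 : ℝ) * D) :=
    mul_le_mul_of_nonneg_right h7 (by positivity)
  have h9 := mul_le_mul_of_nonneg_left (h6.trans h8) hΩ0.le
  have h10 : (Ω.card : ℝ) * (∑ E ∈ Ω, f E ^ 2 - (∑ E ∈ Ω, f E) ^ 2 / Ω.card) =
      Ω.card * ∑ E ∈ Ω, f E ^ 2 - (∑ E ∈ Ω, f E) ^ 2 := by field_simp
  rw [h10] at h9
  refine h9.trans (le_of_eq ?_)
  ring

end Crest.Agent.R299
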