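import Crest.Agent.R299.Graph

/-!
Commutation of the refined pair averages and the estimate for two disjoint pairs.
-/

set_option autoImplicit false
set_option linter.unusedSectionVars false
set_option linter.unusedVariables false

namespace Crest.Agent.R299

open Finset Matrix

attribute [local instance] Classical.propDecidable

section abstract

variable {X : Type*} [Fintype X]

lemma dot_comm_proj (A B : (X → ℝ) →ₗ[ℝ] (X → ℝ)) (hA : ∀ f g, f ⬝ᵥ A g = A f ⬝ᵥ g)
    (hB : ∀ f g, f ⬝ᵥ B g = B f ⬝ᵥ g) (hAA : ∀ f, A (A f) = A f) (hBB : ∀ f, B (B f) = B f)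
    (hc : ∀ f, A (B f) = B (A f)) (f : X → ℝ) : A f ⬝ᵥ B f = A (B f) ⬝ᵥ A (B f) := by
  rw [← hA (B f), hAA, hc, hB (B f), hBB, dotProduct_comm]

lemma dot_comp_invol (τ : X ≃ X) (hτ : ∀ x, τ (τ x) = x) (f g : X → ℝ) :
    f ⬝ᵥ (g ∘ τ) = (f ∘ τ) ⬝ᵥ g := by
  simp only [dotProduct, Function.comp_apply]
  rw [← Equiv.sum_comp τ]
  simp only [hτ]

lemma pair_ineq {K₁ K₂ K₃ K₄ : Type*} (kP : X → K₁) (kP' : X → K₂) (kQ : X → K₃) (kQ' : X → K₄)
    (τ : X ≃ X) (D : X → Prop) (hτ : ∀ x, τ (τ x) = x)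
    (refP : ∀ x y, kP' x = kP' y → kP x = kP y) (refQ : ∀ x y, kQ' x = kQ' y → kQ x = kQ y)
    (hτP : ∀ x, kP' (τ x) = kP' x) (hτQ : ∀ x, kQ (τ x) = kQ x)
    (c1 : ∀ f, avg kP' (avg kQ f) = avg kQ (avg kP' f))
    (c2 : ∀ f, avg kP (avg kQ' f) = avg kQ' (avg kP f))
    (c3 : ∀ f, avg kP' (avg kQ' f) = avg kQ' (avg kP' f))
    (supp : ∀ x, ¬D x → (∀ y, kP y = kP x → kP' y = kP' x) ∨ ∀ y, kQ y = kQ x → kQ' y = kQ' x)
    (f : X → ℝ) :
    (1 / 2) * (f ⬝ᵥ (f - f ∘ τ)) -
        (1 / 2) * (∑ x, if D x then avg kP' (f - avg kP f) x ^ 2 else 0) -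
        (1 / 2) * (∑ x, if D x then avg kQ' (f - avg kQ f) x ^ 2 else 0) ≤
      (f - avg kP f) ⬝ᵥ (f - avg kQ f) := by
  have t1 : (1 / 2) * (f ⬝ᵥ (f - f ∘ τ)) ≤ (f - avg kP' f) ⬝ᵥ (f - avg kQ f) := by
    have h1 := dot_comm_proj (LinearMap.id - avg kP') (LinearMap.id - avg kQ)
      (by intro f g; simp [avg_symm]) (by intro f g; simp [avg_symm])
      (by intro f; simp [avg_avg]) (by intro f; simp [avg_avg])
      (by intro f; simp only [LinearMap.sub_apply, LinearMap.id_apply, map_sub, c1]; abel) f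
    simp only [LinearMap.sub_apply, LinearMap.id_apply] at h1
    rw [h1]
    set h := f - avg kQ f - avg kP' (f - avg kQ f) with hh
    set a := f - f ∘ τ with ha
    have haP : avg kP' a = 0 := by rw [ha, map_sub, avg_comp_of_key τ kP' hτP, sub_self]
    have haQ : avg kQ a = 0 := by rw [ha, map_sub, avg_comp_of_key τ kQ hτQ, sub_self]
    have h2 : a ⬝ᵥ h = a ⬝ᵥ f := by
      rw [hh, dotProduct_sub, dotProduct_sub, avg_symm, avg_symm, haP, haQ]; simp
    have h3 : a ⬝ᵥ a = 2 * (a ⬝ᵥ f) := by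
      have h4 : a ∘ τ = -a := by ext x; simp [ha, hτ]
      conv_lhs => rw [ha]
      rw [← ha]
      nth_rewrite 2 [ha]
      rw [dotProduct_sub, dot_comp_invol τ hτ, h4, neg_dotProduct]; ring
    have h5 := dot_self_nonneg (h - (1 / 2 : ℝ) • a)
    simp only [dotProduct_sub, sub_dotProduct, dotProduct_smul, smul_dotProduct,
      smul_eq_mul] at h5
    rw [dotProduct_comm h a] at h5
    rw [dotProduct_comm f a]
    linarith
  have t2 : 0 ≤ (avg kP' f - avg kP f) ⬝ᵥ (f - avg kQ' f) := by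
    have h1 := dot_comm_proj (avg kP' - avg kP) (LinearMap.id - avg kQ')
      (by intro f g; simp [avg_symm]) (by intro f g; simp [avg_symm])
      (by intro f; simp [avg_avg, avg_avg_of_refine refP, avg_avg_of_refine' refP])
      (by intro f; simp [avg_avg])
      (by intro f; simp only [LinearMap.sub_apply, LinearMap.id_apply, map_sub, c2, c3]; abel) f
    simp only [LinearMap.sub_apply, LinearMap.id_apply] at h1
    rw [h1]; exact dot_self_nonneg _
  have t3 : -(1 / 2) * (∑ x, if D x then avg kP' (f - avg kP f) x ^ 2 else 0) -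
        (1 / 2) * (∑ x, if D x then avg kQ' (f - avg kQ f) x ^ 2 else 0) ≤
      (avg kP' f - avg kP f) ⬝ᵥ (avg kQ' f - avg kQ f) := by
    rw [map_sub, map_sub, avg_avg_of_refine refP, avg_avg_of_refine refQ, dotProduct, mul_sum,
      mul_sum, ← sum_sub_distrib]
    refine sum_le_sum fun x _ => ?_
    split_ifs with hD
    · nlinarith [sq_nonneg ((avg kP' f - avg kP f) x + (avg kQ' f - avg kQ f) x)]
    · rcases supp x hD with h | h
      · have : avg kP' f x = avg kP f x := avg_key_congr (fun y => ⟨refP y x, h y⟩) f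
        simp [this]
      · have : avg kQ' f x = avg kQ f x := avg_key_congr (fun y => ⟨refQ y x, h y⟩) f
        simp [this]
  have e : (f - avg kP f) ⬝ᵥ (f - avg kQ f) = (f - avg kP' f) ⬝ᵥ (f - avg kQ f) +
      (avg kP' f - avg kP f) ⬝ᵥ (f - avg kQ' f) +
      (avg kP' f - avg kP f) ⬝ᵥ (avg kQ' f - avg kQ f) := by
    simp only [dotProduct_sub, sub_dotProduct]; ring
  linarith

end abstract

variable {V : Type*} [Fintype V] [DecidableEq V]

/-- Transplant the outer edges of the rows `u, v` from `G'` into `H`. -/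
noncomputable def trans (u v x y : V) (G' H : Gr V) : Gr V :=
  patch (fun i j => (i = u ∨ i = v) ∧ j ≠ u ∧ j ≠ v ∧ j ≠ x ∧ j ≠ y) H G'

lemma trans_off {u v x y : V} (G' H : Gr V) {i j : V} (h1 : i ≠ u) (h2 : i ≠ v) (h3 : j ≠ u)
    (h4 : j ≠ v) : (trans u v x y G' H).adj i j = H.adj i j := by
  simp [trans, patch, h1, h2, h3, h4]

lemma trans_x {u v x y : V} (hd : Dist u v x y) (G' H : Gr V) (i : V) :
    (trans u v x y G' H).adj i x = H.adj i x := by
  simp [trans, patch, hd.ux.symm, hd.vx.symm]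

lemma trans_y {u v x y : V} (hd : Dist u v x y) (G' H : Gr V) (i : V) :
    (trans u v x y G' H).adj i y = H.adj i y := by
  simp [trans, patch, hd.uy.symm, hd.vy.symm]

lemma trans_uv {u v x y : V} (G' H : Gr V) : (trans u v x y G' H).adj u v = H.adj u v := by
  simp [trans, patch]

lemma trans_u {u v x y : V} (G' H : Gr V) {j : V} (h1 : j ≠ u) (h2 : j ≠ v) (h3 : j ≠ x)
    (h4 : j ≠ y) : (trans u v x y G' H).adj u j = G'.adj u j := by
  simp [trans, patch, h1, h2, h3, h4]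

lemma trans_v {u v x y : V} (G' H : Gr V) {j : V} (h1 : j ≠ u) (h2 : j ≠ v) (h3 : j ≠ x)
    (h4 : j ≠ y) : (trans u v x y G' H).adj v j = G'.adj v j := by
  simp [trans, patch, h1, h2, h3, h4]

/-- The properties of the optional row exchange that are used below. -/
structure Mid (u v x y : V) (H H₁ : Gr V) : Prop where
  off1 : ∀ i j, i ≠ u → i ≠ v → j ≠ u → j ≠ v → H₁.adj i j = H.adj i j
  off2 : ∀ i j, i ≠ x → i ≠ y → j ≠ x → j ≠ y → H₁.adj i j = H.adj i j
  col : ∀ z, z ≠ u → z ≠ v → bz (H₁.adj u z) + bz (H₁.adj v z) = bz (H.adj u z) + bz (H.adj v z)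

lemma trans_spec {u v x y : V} (hd : Dist u v x y) {G G' H H₁ : Gr V}
    (hP : pkey u v G = pkey u v G') (hQ : pkey x y H = pkey x y G) (hM : Mid u v x y H H₁)
    (hr : bz (H₁.adj u x) + bz (H₁.adj u y) = bz (G'.adj u x) + bz (G'.adj u y)) :
    pkey x y (trans u v x y G' H₁) = pkey x y G' ∧ pkey u v (trans u v x y G' H₁) = pkey u v H := by
  obtain ⟨p1, p2, p3⟩ := pkey_eq_iff.1 hP
  obtain ⟨q1, q2, q3⟩ := pkey_eq_iff.1 hQ
  set T := trans u v x y G' H₁ with hT
  have huv : T.adj u v = G'.adj u v := by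
    rw [hT, trans_uv, hM.off2 _ _ hd.ux hd.uy hd.vx hd.vy, q2 _ _ hd.ux hd.uy hd.vx hd.vy, p3]
  have hu : ∀ j, j ≠ x → j ≠ y → T.adj u j = G'.adj u j := by
    intro j h1 h2
    by_cases hju : j = u
    · rw [hju, T.irr, G'.irr]
    by_cases hjv : j = v
    · rw [hjv, huv]
    exact trans_u _ _ hju hjv h1 h2
  have hv : ∀ j, j ≠ x → j ≠ y → T.adj v j = G'.adj v j := by
    intro j h1 h2
    by_cases hju : j = u
    · rw [hju, T.symm, G'.symm, huv]
    by_cases hjv : j = v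
    · rw [hjv, T.irr, G'.irr]
    exact trans_v _ _ hju hjv h1 h2
  have cx := hM.col x hd.ux.symm hd.vx.symm
  have cy := hM.col y hd.uy.symm hd.vy.symm
  have cx' := col_of_pkey hd.uv hP hd.ux.symm hd.vx.symm
  have cy' := col_of_pkey hd.uv hP hd.uy.symm hd.vy.symm
  have ru := row_of_pkey hd.xy hQ hd.ux hd.uy
  have rv := row_of_pkey hd.xy hQ hd.vx hd.vy
  have hoff : ∀ i j, i ≠ u → i ≠ v → j ≠ u → j ≠ v → T.adj i j = H.adj i j := fun i j h1 h2 h3 h4 =>
    (trans_off _ _ h1 h2 h3 h4).trans (hM.off1 i j h1 h2 h3 h4)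
  have hdeg : gdeg T = gdeg G' := by
    ext z
    by_cases hzu : z = u
    · have := gdeg_sub_pair T G' u hd.xy hu
      rw [hT, trans_x hd, trans_y hd] at this
      rw [hzu]; linarith
    by_cases hzv : z = v
    · have := gdeg_sub_pair T G' v hd.xy hv
      rw [hT, trans_x hd, trans_y hd] at this
      rw [hzv]; linarith
    have h1 := gdeg_sub_pair T H z hd.uv (fun j h1 h2 => hoff z j hzu hzv h1 h2)
    rw [T.symm z, T.symm z, H.symm z, H.symm z, q1, p1] at h1
    by_cases hzx : z = x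
    · rw [hzx, hT, trans_x hd, trans_x hd] at h1; rw [hzx]; linarith
    by_cases hzy : z = y
    · rw [hzy, hT, trans_y hd, trans_y hd] at h1; rw [hzy]; linarith
    have h2 := col_of_pkey hd.uv hP hzu hzv
    rw [hu z hzx hzy, hv z hzx hzy, q2 u z hd.ux hd.uy hzx hzy, q2 v z hd.vx hd.vy hzx hzy] at h1
    linarith
  refine ⟨pkey_eq_iff.2 ⟨hdeg, fun i j h1 h2 h3 h4 => ?_, ?_⟩, pkey_eq_iff.2 ⟨?_, hoff, ?_⟩⟩
  · by_cases hiu : i = u
    · rw [hiu]; exact hu j h3 h4
    by_cases hiv : i = v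
    · rw [hiv]; exact hv j h3 h4
    by_cases hju : j = u
    · rw [hju, T.symm, G'.symm]; exact hu i h1 h2
    by_cases hjv : j = v
    · rw [hjv, T.symm, G'.symm]; exact hv i h1 h2
    rw [hoff i j hiu hiv hju hjv, q2 i j h1 h2 h3 h4, p2 i j hiu hiv hju hjv]
  · rw [hoff x y hd.ux.symm hd.vx.symm hd.uy.symm hd.vy.symm, q3,
      p2 x y hd.ux.symm hd.vx.symm hd.uy.symm hd.vy.symm]
  · rw [hdeg, ← p1, q1]
  · rw [huv, ← p3, q2 u v hd.ux hd.uy hd.vx hd.vy]

lemma comm_data {u v x y : V} (hd : Dist u v x y) (G G' : Gr V)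
    (hP : rkey u v x y G = rkey u v x y G') : ∃ φ : Gr V → Gr V,
      (∀ H, pkey x y H = pkey x y G → pkey x y (φ H) = pkey x y G' ∧
        rkey u v x y (φ H) = rkey u v x y H ∧ rex x y u v (φ H) = rex x y u v H) ∧
      ∀ H H', pkey x y H = pkey x y G → pkey x y H' = pkey x y G → φ H = φ H' → H = H' := by
  obtain ⟨hP, hex⟩ := rkey_eq_iff.1 hP
  have cx' := col_of_pkey hd.uv hP hd.ux.symm hd.vx.symm
  have cy' := col_of_pkey hd.uv hP hd.uy.symm hd.vy.symm
  have inj : ∀ H H' : Gr V, (∀ i j, i ≠ x → i ≠ y → j ≠ x → j ≠ y → H.adj i j = H'.adj i j) →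
      trans u v x y G' H = trans u v x y G' H' → H = H' := by
    intro H H' h1 h2
    refine ext_block hd (fun i j a b c d => ?_) h1 ?_ ?_ ?_ ?_
    · rw [← trans_off (x := x) (y := y) G' H a b c d, h2, trans_off G' H' a b c d]
    · rw [← trans_x hd G' H, h2, trans_x hd]
    · rw [← trans_y hd G' H, h2, trans_y hd]
    · rw [← trans_x hd G' H, h2, trans_x hd]
    · rw [← trans_y hd G' H, h2, trans_y hd]
  by_cases hr : bz (G.adj u x) + bz (G.adj u y) = bz (G'.adj u x) + bz (G'.adj u y)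
  · refine ⟨trans u v x y G', fun H hQ => ?_, fun H H' h1 h2 h3 => inj H H' ?_ h3⟩
    · have ru := row_of_pkey hd.xy hQ hd.ux hd.uy
      obtain ⟨h1, h2⟩ := trans_spec hd hP hQ ⟨fun _ _ _ _ _ _ => rfl, fun _ _ _ _ _ _ => rfl,
        fun _ _ _ => rfl⟩ (ru.trans hr)
      refine ⟨h1, rkey_eq_iff.2 ⟨h2, ?_⟩, ?_⟩
      · simp only [rex, trans_x hd, trans_y hd]
      · simp only [rex, Gr.symm _ x, Gr.symm _ y, trans_x hd, trans_y hd]
    · exact (pkey_eq_iff.1 (h1.trans h2.symm)).2.1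
  · refine ⟨fun H => trans u v x y G' (rsw u v x y H), fun H hQ => ?_, fun H H' h1 h2 h3 => ?_⟩
    · have ru := row_of_pkey hd.xy hQ hd.ux hd.uy
      have rv := row_of_pkey hd.xy hQ hd.vx hd.vy
      have hm : bz (G.adj u x) + bz (G.adj u y) + bz (G.adj v x) + bz (G.adj v y) ≠ 2 := by
        intro hm
        have hm' : bz (G'.adj u x) + bz (G'.adj u y) + bz (G'.adj v x) + bz (G'.adj v y) = 2 := by
          linarith
        simp only [rex, hm, hm', if_true] at hex
        exact hr hex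
      obtain ⟨h1, h2⟩ := trans_spec hd hP hQ (H₁ := rsw u v x y H)
        ⟨fun _ _ a b c d => rsw_off1 _ a b c d, fun _ _ a b c d => rsw_off2 _ a b c d,
          fun _ a b => rsw_col hd H a b⟩ (by
          rw [rsw_ux hd, rsw_uy hd, rv]
          have := bz_nonneg (G.adj u x); have := bz_le_one (G.adj u x)
          have := bz_nonneg (G.adj u y); have := bz_le_one (G.adj u y)
          have := bz_nonneg (G.adj v x); have := bz_le_one (G.adj v x)
          have := bz_nonneg (G.adj v y); have := bz_le_one (G.adj v y)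
          have := bz_nonneg (G'.adj u x); have := bz_le_one (G'.adj u x)
          have := bz_nonneg (G'.adj u y); have := bz_le_one (G'.adj u y)
          have := bz_nonneg (G'.adj v x); have := bz_le_one (G'.adj v x)
          have := bz_nonneg (G'.adj v y); have := bz_le_one (G'.adj v y)
          omega)
      refine ⟨h1, rkey_eq_iff.2 ⟨h2, ?_⟩, ?_⟩
      · simp only [rex, trans_x hd, trans_y hd, rsw_ux hd, rsw_uy hd, rsw_vx hd, rsw_vy hd]
        rw [if_neg (by omega), if_neg (by omega)]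
      · simp only [rex, Gr.symm _ x, Gr.symm _ y, trans_x hd, trans_y hd, rsw_ux hd, rsw_uy hd,
          rsw_vx hd, rsw_vy hd]
        rw [if_neg (by omega), if_neg (by omega)]
    · have h4 := inj _ _ (fun i j a b c d => by
        rw [rsw_off2 _ a b c d, rsw_off2 _ a b c d]
        exact (pkey_eq_iff.1 (h1.trans h2.symm)).2.1 i j a b c d) h3
      rw [← rsw_rsw hd H, h4, rsw_rsw hd]

lemma comm_rp {u v x y : V} (hd : Dist u v x y) (f : Gr V → ℝ) :
    avg (rkey u v x y) (avg (pkey x y) f) = avg (pkey x y) (avg (rkey u v x y) f) := by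
  refine avg_comm (fun G G' h => ?_) f
  obtain ⟨φ, h1, h2⟩ := comm_data hd G G' h
  exact ⟨φ, fun H hH => ⟨(h1 H hH).1, (h1 H hH).2.1⟩, h2⟩

lemma comm_rr {u v x y : V} (hd : Dist u v x y) (f : Gr V → ℝ) :
    avg (rkey u v x y) (avg (rkey x y u v) f) = avg (rkey x y u v) (avg (rkey u v x y) f) := by
  refine avg_comm (fun G G' h => ?_) f
  obtain ⟨φ, h1, h2⟩ := comm_data hd G G' h
  refine ⟨φ, fun H hH => ?_, fun H H' a b => h2 H H' (rkey_eq_iff.1 a).1 (rkey_eq_iff.1 b).1⟩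
  obtain ⟨a, b⟩ := rkey_eq_iff.1 hH
  refine ⟨rkey_eq_iff.2 ⟨(h1 H a).1, ?_⟩, (h1 H a).2.1⟩
  rw [(h1 H a).2.2, b]
  have hP := (rkey_eq_iff.1 h).1
  have cx' := col_of_pkey hd.uv hP hd.ux.symm hd.vx.symm
  have cy' := col_of_pkey hd.uv hP hd.uy.symm hd.vy.symm
  simp only [rex, Gr.symm _ x, Gr.symm _ y]
  split_ifs <;> omega

/-- The estimate for two disjoint pairs. -/
lemma pair_graph {u v x y : V} (hd : Dist u v x y) (f : Gr V → ℝ) :
    (1 / 2) * (f ⬝ᵥ (f - f ∘ tau u v x y)) -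
        (1 / 2) * (∑ G, if Sw u v x y G then avg (rkey u v x y) (f - avg (pkey u v) f) G ^ 2
          else 0) -
        (1 / 2) * (∑ G, if Sw x y u v G then avg (rkey x y u v) (f - avg (pkey x y) f) G ^ 2
          else 0) ≤
      (f - avg (pkey u v) f) ⬝ᵥ (f - avg (pkey x y) f) := by
  have := pair_ineq (pkey u v) (rkey u v x y) (pkey x y) (rkey x y u v) (tau u v x y)
    (Sw u v x y) (tau_tau u v x y) (fun _ _ h => (rkey_eq_iff.1 h).1)
    (fun _ _ h => (rkey_eq_iff.1 h).1) (rkey_tau u v x y)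
    (fun G => by rw [← tau_symm, pkey_tau]) (comm_rp hd) (fun f => (comm_rp hd.symm f).symm)
    (comm_rr hd) (fun G hG => supp_of_not_Sw hd hG) f
  have e : ∀ G, Sw x y u v G ↔ Sw u v x y G := fun G => ⟨Sw.symm, Sw.symm⟩
  simp only [e]
  exact this

end Crest.Agent.R299
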