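import Crest.Agent.R299.JGraph

/-!
The three-row estimate transported to a triple of vertices; the three inner edges form one
additional column.
-/

set_option autoImplicit false
set_option linter.unusedSectionVars false
set_option linter.unusedVariables false

namespace Crest.Agent.R299

open Finset Matrix

attribute [local instance] Classical.propDecidable

variable {V : Type*} [Fintype V] [DecidableEq V]

/-- The column patterns of a triple. -/
def pat (t : Fin 3 → V) (G : Gr V) : Option V → Fin 3 → Bool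
  | some z, i => G.adj (t i) z
  | none, i => !G.adj (t (i + 1)) (t (i + 2))

/-- Outer vertices. -/
def Out (t : Fin 3 → V) (z : V) : Prop := ∀ i, z ≠ t i

/-- Valid columns. -/
def Val (t : Fin 3 → V) : Option V → Prop
  | some z => Out t z
  | none => True

/-- Column sums. -/
def cs (M : Fin 3 → Bool) : ℤ := ∑ i, bz (M i)

/-- Row sums. -/
noncomputable def rs (t : Fin 3 → V) (G : Gr V) (i : Fin 3) : ℤ :=
  ∑ o ∈ univ.filter (Val t), bz (pat t G o i)

lemma pat_none (t : Fin 3 → V) (G : Gr V) {i j l : Fin 3} (hij : i ≠ j) (hil : i ≠ l)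
    (hjl : j ≠ l) : pat t G none i = !G.adj (t j) (t l) := by
  have h : (j = i + 1 ∧ l = i + 2) ∨ (l = i + 1 ∧ j = i + 2) := by
    revert i j l; decide
  rcases h with ⟨rfl, rfl⟩ | ⟨rfl, rfl⟩
  · rfl
  · rw [G.symm]; rfl

lemma ext_pat (t : Fin 3 → V) {G G' : Gr V}
    (h1 : ∀ p q, Out t p → Out t q → G.adj p q = G'.adj p q)
    (h2 : ∀ o, Val t o → pat t G o = pat t G' o) : G = G' := by
  have key : ∀ i q, G.adj (t i) q = G'.adj (t i) q := by
    intro i q
    by_cases hq : Out t q
    · exact congrFun (h2 (some q) hq) i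
    · simp only [Out, not_forall, not_not] at hq
      obtain ⟨j, rfl⟩ := hq
      by_cases hij : i = j
      · rw [hij, G.irr, G'.irr]
      · obtain ⟨l, hil, hjl⟩ := fin3_third i j hij
        have := congrFun (h2 none trivial) l
        rw [pat_none t G hil.symm hjl.symm hij, pat_none t G' hil.symm hjl.symm hij] at this
        simpa using this
  refine Gr.ext' fun p q => ?_
  by_cases hp : Out t p
  · by_cases hq : Out t q
    · exact h1 p q hp hq
    · simp only [Out, not_forall, not_not] at hq
      obtain ⟨j, rfl⟩ := hq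
      rw [G.symm, G'.symm, key]
  · simp only [Out, not_forall, not_not] at hp
    obtain ⟨i, rfl⟩ := hp
    exact key i q

lemma exists_build {t : Fin 3 → V} (ht : Function.Injective t) (G₀ : Gr V)
    (M : Option V → Fin 3 → Bool) : ∃ G : Gr V,
      (∀ p q, Out t p → Out t q → G.adj p q = G₀.adj p q) ∧ ∀ o, Val t o → pat t G o = M o := by
  have h01 : t 0 ≠ t 1 := ht.ne (by decide)
  have h02 : t 0 ≠ t 2 := ht.ne (by decide)
  have h12 : t 1 ≠ t 2 := ht.ne (by decide)
  refine ⟨patch (fun p _ => p = t 0 ∨ p = t 1 ∨ p = t 2) G₀ (mkG fun p q =>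
    if p = t 0 then (if q = t 1 then !M none 2 else if q = t 2 then !M none 1 else M (some q) 0)
    else if p = t 1 then (if q = t 0 then false else if q = t 2 then !M none 0 else M (some q) 1)
    else if p = t 2 then (if q = t 0 ∨ q = t 1 then false else M (some q) 2) else false), ?_, ?_⟩
  · intro p q hp hq
    simp [patch, hp 0, hp 1, hp 2, hq 0, hq 1, hq 2]
  · rintro (_ | z) hz
    · ext i
      fin_cases i <;> simp [pat, patch, mkG, h01, h02, h12, h01.symm, h02.symm, h12.symm]
    · have h0 := hz 0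
      have h1 := hz 1
      have h2 := hz 2
      ext i
      fin_cases i <;> simp [pat, patch, mkG, h01, h02, h12, h01.symm, h02.symm, h12.symm, h0, h1,
        h2, h0.symm, h1.symm, h2.symm]

lemma gdeg_out {t : Fin 3 → V} (ht : Function.Injective t) {G G' : Gr V}
    (h1 : ∀ p q, Out t p → Out t q → G.adj p q = G'.adj p q) {z : V} (hz : Out t z) :
    gdeg G z - gdeg G' z = cs (pat t G (some z)) - cs (pat t G' (some z)) := by
  rw [gdeg_sub G G' z z (univ.image t) (fun j hj => h1 z j hz (fun i h => hj (by simp [h]))),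
    sum_image (fun a _ b _ h => ht h), cs, cs, ← sum_sub_distrib]
  simp only [pat, G.symm z, G'.symm z]

lemma gdeg_in {t : Fin 3 → V} (ht : Function.Injective t) (G : Gr V) (i : Fin 3) :
    gdeg G (t i) = rs t G i + 2 - cs (pat t G none) := by
  obtain ⟨j, l, hij, hil, hjl⟩ : ∃ j l : Fin 3, i ≠ j ∧ i ≠ l ∧ j ≠ l := by revert i; decide
  have h1 : rs t G i = bz (pat t G none i) + ∑ z ∈ univ.filter (Out t), bz (G.adj (t i) z) := by
    rw [rs, sum_filter, Fintype.sum_option, sum_filter]
    simp only [Val, if_true, pat]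
  have h2 : gdeg G (t i) = ∑ z ∈ univ.filter (Out t), bz (G.adj (t i) z) +
      ∑ k, bz (G.adj (t i) (t k)) := by
    rw [gdeg, ← sum_filter_add_sum_filter_not univ (Out t)]
    congr 1
    rw [← sum_image (s := univ) (g := t) (f := fun z => bz (G.adj (t i) z))
      (fun a _ b _ h => ht h)]
    refine sum_congr ?_ fun _ _ => rfl
    ext z; simp [Out, eq_comm]
  rw [h1, h2, cs, sum_three _ hij hil hjl, sum_three _ hij hil hjl, pat_none t G hij hil hjl,
    pat_none t G hij.symm hjl hil, pat_none t G hil.symm hjl.symm hij, G.irr]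
  simp only [bz_not, bz_false]
  ring

lemma pkey_iff_pat {t : Fin 3 → V} (ht : Function.Injective t) {i j l : Fin 3} (hij : i ≠ j)
    (hil : i ≠ l) (hjl : j ≠ l) {G G' : Gr V} :
    pkey (t j) (t l) G = pkey (t j) (t l) G' ↔
      (∀ p q, Out t p → Out t q → G.adj p q = G'.adj p q) ∧
      (∀ o, Val t o → cs (pat t G o) = cs (pat t G' o)) ∧ rs t G = rs t G' ∧
      ∀ o, Val t o → pat t G o i = pat t G' o i := by
  rw [pkey_eq_iff]
  constructor
  · rintro ⟨h1, h2, h3⟩
    have a1 : ∀ p q, Out t p → Out t q → G.adj p q = G'.adj p q :=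
      fun p q hp hq => h2 p q (hp j) (hp l) (hq j) (hq l)
    have a4 : ∀ o, Val t o → pat t G o i = pat t G' o i := by
      rintro (_ | z) hz
      · rw [pat_none t G hij hil hjl, pat_none t G' hij hil hjl, h3]
      · exact h2 _ _ (ht.ne hij) (ht.ne hil) (hz j) (hz l)
    have a5 : rs t G i = rs t G' i :=
      sum_congr rfl fun o ho => by rw [a4 o (mem_filter.1 ho).2]
    have a6 : cs (pat t G none) = cs (pat t G' none) := by
      have b1 := gdeg_in ht G i
      have b2 := gdeg_in ht G' i
      rw [h1] at b1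
      linarith
    refine ⟨a1, ?_, ?_, a4⟩
    · rintro (_ | z) hz
      · exact a6
      · have := gdeg_out ht a1 hz
        rw [h1] at this
        linarith
    · ext k
      have b1 := gdeg_in ht G k
      have b2 := gdeg_in ht G' k
      rw [h1] at b1
      linarith
  · rintro ⟨a1, a2, a3, a4⟩
    have hcase : ∀ p, p ≠ t j → p ≠ t l → Out t p ∨ p = t i := by
      intro p h1 h2
      by_cases h3 : p = t i
      · exact Or.inr h3
      · refine Or.inl fun k => ?_
        rcases fin3_cases i j l k hij hil hjl with rfl | rfl | rfl <;> assumption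
    refine ⟨?_, fun p q b1 b2 b3 b4 => ?_, ?_⟩
    · ext z
      by_cases hz : Out t z
      · have := gdeg_out ht a1 hz
        rw [a2 (some z) hz] at this
        linarith
      · simp only [Out, not_forall, not_not] at hz
        obtain ⟨k, rfl⟩ := hz
        rw [gdeg_in ht, gdeg_in ht, a3, a2 none trivial]
    · rcases hcase p b1 b2 with hp | rfl <;> rcases hcase q b3 b4 with hq | rfl
      · exact a1 p q hp hq
      · rw [G.symm, G'.symm]; exact a4 (some p) hp
      · exact a4 (some q) hq
      · rw [G.irr, G'.irr]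
    · have := a4 none trivial
      rw [pat_none t G hij hil hjl, pat_none t G' hij hil hjl] at this
      simpa using this

/-- Active columns of a triple. -/
def TAct (t : Fin 3 → V) (G₀ : Gr V) (o : Option V) : Prop :=
  Val t o ∧ (cs (pat t G₀ o) = 1 ∨ cs (pat t G₀ o) = 2)

/-- Sign of an active column. -/
noncomputable def tsign (t : Fin 3 → V) (G₀ : Gr V) (c : {o // TAct t G₀ o}) : Bool :=
  decide (cs (pat t G₀ c) = 1)

/-- The pattern prescribed by a choice function. -/
noncomputable def patx (t : Fin 3 → V) (G₀ : Gr V) (x : {o // TAct t G₀ o} → Fin 3)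
    (o : Option V) (i : Fin 3) : Bool :=
  if h : TAct t G₀ o then (decide (x ⟨o, h⟩ = i) == tsign t G₀ ⟨o, h⟩) else pat t G₀ o i

lemma cs_choice : ∀ (a : Fin 3) (b : Bool),
    cs (fun i => decide (a = i) == b) = if b then 1 else 2 := by decide

lemma exists_choice : ∀ M : Fin 3 → Bool, cs M = 1 ∨ cs M = 2 →
    ∃ a : Fin 3, ∀ i, M i = (decide (a = i) == decide (cs M = 1)) := by decide

lemma eq_of_cs_trivial : ∀ M M' : Fin 3 → Bool, cs M = cs M' → ¬(cs M = 1 ∨ cs M = 2) →
    M = M' := by decide

lemma choice_inj : ∀ (a a' : Fin 3) (b : Bool),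
    (∀ i, (decide (a = i) == b) = (decide (a' = i) == b)) → a = a' := by decide

lemma cs_patx (t : Fin 3 → V) (G₀ : Gr V) (x : {o // TAct t G₀ o} → Fin 3) (o : Option V) :
    cs (patx t G₀ x o) = cs (pat t G₀ o) := by
  by_cases h : TAct t G₀ o
  · have : patx t G₀ x o = fun i => decide (x ⟨o, h⟩ = i) == tsign t G₀ ⟨o, h⟩ := by
      ext i; simp [patx, h]
    rw [this, cs_choice, tsign]
    rcases h.2 with h1 | h1 <;> simp [h1]
  · have : patx t G₀ x o = pat t G₀ o := by ext i; simp [patx, h]
    rw [this]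

lemma sum_bz_choice {C : Type*} [Fintype C] [DecidableEq C] (ε : C → Bool) (x : C → Fin 3)
    (k : Fin 3) : ∑ c, bz (decide (x c = k) == ε c) =
      rho ε x k + (univ.filter fun c => ε c = false).card := by
  simp only [rho, cN, card_filter]
  push_cast
  rw [← sum_sub_distrib, ← sum_add_distrib]
  refine sum_congr rfl fun c _ => ?_
  by_cases h : x c = k <;> cases ε c <;> simp [h]

theorem three_graph {t : Fin 3 → V} (ht : Function.Injective t) (f : Gr V → ℝ) (θ : ℝ)
    (hθ : 2 < θ) (h : ∀ G, ∑ i, avg (pkey (t (i + 1)) (t (i + 2))) f G = θ * f G) (i : Fin 3)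
    (G₀ G₁ : Gr V) (hG : pkey (t (i + 1)) (t (i + 2)) G₁ = pkey (t (i + 1)) (t (i + 2)) G₀) :
    f G₁ = f G₀ := by
  choose ι hι1 hι2 using fun x => exists_build ht G₀ (patx t G₀ x)
  have hrs : ∀ x y k, rs t (ι x) k - rs t (ι y) k =
      rho (tsign t G₀) x k - rho (tsign t G₀) y k := by
    intro x y k
    rw [rs, rs, ← sum_sub_distrib,
      ← sum_subset (s₁ := univ.filter (TAct t G₀)) (fun o ho => by
        simp only [mem_filter, mem_univ, true_and] at ho ⊢; exact ho.1) (fun o ho ho' => by
        simp only [mem_filter, mem_univ, true_and] at ho ho'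
        rw [hι2 x o ho, hι2 y o ho]; simp [patx, ho']),
      sum_subtype (p := TAct t G₀) _ (by simp)]
    have e1 := sum_bz_choice (tsign t G₀) x k
    have e2 := sum_bz_choice (tsign t G₀) y k
    have e3 : ∀ x (c : {o // TAct t G₀ o}), pat t (ι x) c k = (decide (x c = k) == tsign t G₀ c) := by
      intro x c
      rw [hι2 x c c.2.1]; simp [patx, c.2]
    simp only [e3, sum_sub_distrib]
    linarith
  have hpat : ∀ x (c : {o // TAct t G₀ o}) k,
      pat t (ι x) c k = (decide (x c = k) == tsign t G₀ c) := by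
    intro x c k
    rw [hι2 x c c.2.1]; simp [patx, c.2]
  have hinj : ∀ x y, ι x = ι y → x = y := by
    intro x y hxy
    ext1 c
    refine choice_inj _ _ (tsign t G₀ c) fun k => ?_
    rw [← hpat, ← hpat, hxy]
  have hsurj : ∀ G : Gr V, (∀ p q, Out t p → Out t q → G.adj p q = G₀.adj p q) →
      (∀ o, Val t o → cs (pat t G o) = cs (pat t G₀ o)) → ∃ x, ι x = G := by
    intro G h1 h2
    have : ∀ c : {o // TAct t G₀ o}, ∃ a : Fin 3, ∀ k,
        pat t G c k = (decide (a = k) == tsign t G₀ c) := by
      intro c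
      have h3 := h2 c c.2.1
      obtain ⟨a, ha⟩ := exists_choice (pat t G c) (by rw [h3]; exact c.2.2)
      exact ⟨a, fun k => by rw [ha k, tsign, h3]⟩
    choose x hx using this
    refine ⟨x, ext_pat t (fun p q hp hq => by rw [hι1 x p q hp hq, h1 p q hp hq]) fun o ho => ?_⟩
    by_cases hA : TAct t G₀ o
    · ext k; rw [hpat x ⟨o, hA⟩, hx ⟨o, hA⟩]
    · rw [hι2 x o ho]
      have h3 : patx t G₀ x o = pat t G₀ o := by ext k; simp [patx, hA]
      rw [h3]
      exact eq_of_cs_trivial _ _ (h2 o ho).symm fun h' => hA ⟨ho, h'⟩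
  have hne : ∀ k : Fin 3, k ≠ k + 1 ∧ k ≠ k + 2 ∧ k + 1 ≠ k + 2 := by decide
  have hkey : ∀ k x y, pkey (t (k + 1)) (t (k + 2)) (ι x) = pkey (t (k + 1)) (t (k + 2)) (ι y) ↔
      tkey (tsign t G₀) k x = tkey (tsign t G₀) k y := by
    intro k x y
    rw [pkey_iff_pat ht (hne k).1 (hne k).2.1 (hne k).2.2, tkey_eq_iff]
    constructor
    · rintro ⟨-, -, h3, h4⟩
      refine ⟨?_, fun c => ?_⟩
      · ext m; have := hrs x y m; rw [h3] at this; linarith
      · have := h4 c c.2.1
        rw [hpat, hpat] at this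
        revert this
        cases tsign t G₀ c <;> simp
    · rintro ⟨h3, h4⟩
      refine ⟨fun p q hp hq => by rw [hι1 x p q hp hq, hι1 y p q hp hq], fun o ho => ?_, ?_,
        fun o ho => ?_⟩
      · rw [hι2 x o ho, hι2 y o ho, cs_patx, cs_patx]
      · ext m; have := hrs x y m; rw [h3] at this; linarith
      · rw [hι2 x o ho, hι2 y o ho]
        by_cases hA : TAct t G₀ o
        · simp only [patx, hA, dif_pos, h4 ⟨o, hA⟩]
        · simp only [patx, hA, dif_neg, not_false_eq_true]
  have hsurj' : ∀ k y G, pkey (t (k + 1)) (t (k + 2)) G = pkey (t (k + 1)) (t (k + 2)) (ι y) →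
      ∃ x, ι x = G := by
    intro k y G hG
    obtain ⟨h1, h2, -⟩ := (pkey_iff_pat ht (hne k).1 (hne k).2.1 (hne k).2.2).1 hG
    exact hsurj G (fun p q hp hq => by rw [h1 p q hp hq, hι1 y p q hp hq])
      (fun o ho => by rw [h2 o ho, hι2 y o ho, cs_patx])
  have htr : ∀ k y, avg (pkey (t (k + 1)) (t (k + 2))) f (ι y) =
      avg (tkey (tsign t G₀) k) (f ∘ ι) y := by
    intro k y
    refine avg_transport ι _ _ y (fun a b _ _ h => hinj a b h) (fun a ha => (hkey k a y).2 ha)
      (fun G hG => ?_) f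
    obtain ⟨x, rfl⟩ := hsurj' k y G hG
    exact ⟨x, (hkey k x y).1 hG, rfl⟩
  obtain ⟨x₀, hx₀⟩ := hsurj G₀ (fun _ _ _ _ => rfl) (fun _ _ => rfl)
  rw [← hx₀] at hG
  obtain ⟨x₁, rfl⟩ := hsurj' i x₀ G₁ hG
  have := three (tsign t G₀) (f ∘ ι) θ hθ (fun x => by
    simp only [← htr, Function.comp_apply]; exact h _) x₁ x₀
    (tkey_eq_iff.1 ((hkey i x₁ x₀).1 hG)).1
  simpa only [Function.comp_apply, hx₀] using this

/-- The triple inequality. -/
theorem triple_ineq {u v w : V} (huv : u ≠ v) (huw : u ≠ w) (hvw : v ≠ w) (f : Gr V → ℝ) :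
    0 ≤ (f - avg (pkey u v) f) ⬝ᵥ (f - avg (pkey u w) f) +
      (f - avg (pkey v u) f) ⬝ᵥ (f - avg (pkey v w) f) +
      (f - avg (pkey w u) f) ⬝ᵥ (f - avg (pkey w v) f) := by
  set t : Fin 3 → V := ![u, v, w] with ht
  have hti : Function.Injective t := by
    intro a b hab
    fin_cases a <;> fin_cases b <;> simp_all [eq_comm]
  set T : (Gr V → ℝ) →ₗ[ℝ] (Gr V → ℝ) :=
    ∑ i : Fin 3, (LinearMap.id - avg (pkey (t (i + 1)) (t (i + 2)))) with hT
  have hTa : ∀ g, T g = ∑ i : Fin 3, (g - avg (pkey (t (i + 1)) (t (i + 2))) g) := by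
    intro g; simp only [hT, LinearMap.sum_apply, LinearMap.sub_apply, LinearMap.id_apply]
  have := sq_ge_of_eigen T ?_ 1 one_pos ?_ f
  · rw [hTa, Fin.sum_univ_three] at this
    have e0 : pkey (t (0 + 1)) (t (0 + 2)) = pkey v w := rfl
    have e1 : pkey (t (1 + 1)) (t (1 + 2)) = pkey w u := rfl
    have e2 : pkey (t (2 + 1)) (t (2 + 2)) = pkey u v := rfl
    rw [e0, e1, e2] at this
    rw [avg_pkey_comm v u, avg_pkey_comm u w, avg_pkey_comm w v]
    have hp : ∀ a b : V, f ⬝ᵥ (f - avg (pkey a b) f) =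
        (f - avg (pkey a b) f) ⬝ᵥ (f - avg (pkey a b) f) := by
      intro a b
      simp only [dotProduct_sub, sub_dotProduct, ← dot_avg_self,
        dotProduct_comm (avg (pkey a b) f) f]
      ring
    simp only [dotProduct_add, add_dotProduct, hp] at this
    set a := f - avg (pkey v w) f
    set b := f - avg (pkey w u) f
    set c := f - avg (pkey u v) f
    rw [dotProduct_comm b a, dotProduct_comm c a, dotProduct_comm c b] at this
    rw [dotProduct_comm c a, dotProduct_comm c b, dotProduct_comm b a]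
    linarith
  · intro f g
    simp only [hTa, dotProduct_sum, sum_dotProduct, dotProduct_sub, sub_dotProduct, avg_symm]
  · intro μ g h0 h1 hg
    have h2 : ∀ G, ∑ i, avg (pkey (t (i + 1)) (t (i + 2))) g G = (3 - μ) * g G := by
      intro G
      have := congrFun hg G
      rw [hTa, Finset.sum_apply] at this
      simp only [Pi.sub_apply, sum_sub_distrib, Pi.smul_apply, smul_eq_mul, sum_const, card_univ,
        Fintype.card_fin, nsmul_eq_mul] at this
      push_cast at this
      linarith
    have h3 : ∀ i, avg (pkey (t (i + 1)) (t (i + 2))) g = g := fun i =>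
      avg_of_inv fun G G' h => three_graph hti g (3 - μ) (by linarith) h2 i G' G h
    ext G
    have h4 := h2 G
    simp only [h3, sum_const, card_univ, Fintype.card_fin, nsmul_eq_mul] at h4
    push_cast at h4
    have h5 : μ * g G = 0 := by linarith
    simpa [h0.ne'] using h5

end Crest.Agent.R299
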