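import Crest.Agent.R299.Johnson

/-!
The three-row estimate. Every column `c` chooses a row `x c : Fin 3`; columns of sign `true` count
`+1`, columns of sign `false` count `-1` for the chosen row, and the signed counts are fixed.
The sum of the three conditional expectations given one row has no eigenvalue above two except on
constants.
-/

set_option autoImplicit false
set_option linter.unusedSectionVars false

namespace Crest.Agent.R299

open Finset Matrix

attribute [local instance] Classical.propDecidable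

lemma choose_tp2 {a a' τ τ' : ℕ} (ha : a' ≤ a) (hτ : τ ≤ τ') :
    a.choose τ * a'.choose τ' ≤ a.choose τ' * a'.choose τ := by
  induction τ', hτ using Nat.le_induction with
  | base => exact le_rfl
  | succ k hk ih =>
    refine Nat.le_of_mul_le_mul_right ?_ (Nat.succ_pos k)
    calc a.choose τ * a'.choose (k + 1) * (k + 1) = a.choose τ * a'.choose k * (a' - k) := by
          rw [mul_assoc, Nat.choose_succ_right_eq, mul_assoc]
      _ ≤ a.choose k * a'.choose τ * (a - k) := Nat.mul_le_mul ih (by omega)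
      _ = a.choose (k + 1) * (k + 1) * a'.choose τ := by rw [Nat.choose_succ_right_eq]; ring
      _ = _ := by simp only [Nat.succ_eq_add_one]; ring

lemma mlr {Y : Type*} [DecidableEq Y] (A A' : Finset Y) (t : Y → ℕ) (G : Y → ℝ)
    (hG : ∀ y ∈ A ∪ A', ∀ y' ∈ A ∪ A', t y ≤ t y' → G y ≤ G y')
    (hN : ∀ τ τ', τ < τ' → (A.filter fun y => t y = τ).card * (A'.filter fun y => t y = τ').card ≤
      (A.filter fun y => t y = τ').card * (A'.filter fun y => t y = τ).card) :
    (A.card : ℝ) * ∑ y ∈ A', G y ≤ (A'.card : ℝ) * ∑ y ∈ A, G y := by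
  set R := (A ∪ A').image t with hR
  set g : ℕ → ℝ := fun τ => if h : ∃ y ∈ A ∪ A', t y = τ then G h.choose else 0 with hg
  have hgt : ∀ y ∈ A ∪ A', g (t y) = G y := by
    intro y hy
    have h : ∃ y' ∈ A ∪ A', t y' = t y := ⟨y, hy, rfl⟩
    simp only [hg, dif_pos h]
    exact le_antisymm (hG _ h.choose_spec.1 _ hy h.choose_spec.2.le)
      (hG _ hy _ h.choose_spec.1 h.choose_spec.2.ge)
  have hmono : ∀ τ ∈ R, ∀ τ' ∈ R, τ ≤ τ' → g τ ≤ g τ' := by
    intro τ hτ τ' hτ' h
    obtain ⟨y, hy, rfl⟩ := mem_image.1 hτ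
    obtain ⟨y', hy', rfl⟩ := mem_image.1 hτ'
    rw [hgt y hy, hgt y' hy']
    exact hG y hy y' hy' h
  have hsum : ∀ B : Finset Y, B ⊆ A ∪ A' →
      ∑ y ∈ B, G y = ∑ τ ∈ R, ((B.filter fun y => t y = τ).card : ℝ) * g τ := by
    intro B hB
    rw [← sum_fiberwise_of_maps_to (s := B) (t := R) (g := t)
      (fun y hy => mem_image_of_mem t (hB hy))]
    refine sum_congr rfl fun τ _ => ?_
    rw [← nsmul_eq_mul, ← sum_const]
    refine sum_congr rfl fun y hy => ?_
    rw [mem_filter] at hy
    rw [← hy.2, hgt y (hB hy.1)]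
  have hcard : ∀ B : Finset Y, B ⊆ A ∪ A' →
      (B.card : ℝ) = ∑ τ ∈ R, ((B.filter fun y => t y = τ).card : ℝ) := by
    intro B hB
    rw [card_eq_sum_card_fiberwise (s := B) (t := R) (f := t)
      (fun y hy => mem_image_of_mem t (hB hy))]
    push_cast; rfl
  rw [hsum A subset_union_left, hsum A' subset_union_right, hcard A subset_union_left,
    hcard A' subset_union_right]
  set N : ℕ → ℝ := fun τ => ((A.filter fun y => t y = τ).card : ℝ) with hNdef
  set N' : ℕ → ℝ := fun τ => ((A'.filter fun y => t y = τ).card : ℝ) with hN'def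
  have hN2 : ∀ τ τ', τ < τ' → N τ * N' τ' ≤ N τ' * N' τ := by
    intro τ τ' h
    simp only [hNdef, hN'def]
    exact_mod_cast hN τ τ' h
  have key : 0 ≤ ∑ τ ∈ R, ∑ τ' ∈ R, (N τ * N' τ' - N τ' * N' τ) * (g τ - g τ') := by
    refine sum_nonneg fun τ hτ => sum_nonneg fun τ' hτ' => ?_
    rcases lt_trichotomy τ τ' with h | h | h
    · exact mul_nonneg_of_nonpos_of_nonpos (by linarith [hN2 τ τ' h])
        (by linarith [hmono τ hτ τ' hτ' h.le])
    · subst h; simp
    · exact mul_nonneg (by linarith [hN2 τ' τ h]) (by linarith [hmono τ' hτ' τ hτ h.le])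
  have e1 : ∑ τ ∈ R, ∑ τ' ∈ R, (N τ * N' τ' - N τ' * N' τ) * (g τ - g τ') =
      (∑ τ ∈ R, N τ * g τ) * (∑ τ ∈ R, N' τ) - (∑ τ ∈ R, N τ) * (∑ τ ∈ R, N' τ * g τ)
      - (∑ τ ∈ R, N' τ * g τ) * (∑ τ ∈ R, N τ) + (∑ τ ∈ R, N' τ) * (∑ τ ∈ R, N τ * g τ) := by
    simp only [sum_mul_sum, ← sum_sub_distrib, ← sum_add_distrib]
    exact sum_congr rfl fun τ _ => sum_congr rfl fun τ' _ => by ring
  rw [e1] at key
  show (∑ τ ∈ R, N τ) * (∑ τ ∈ R, N' τ * g τ) ≤ (∑ τ ∈ R, N' τ) * (∑ τ ∈ R, N τ * g τ)
  linarith

variable {C : Type*} [Fintype C] [DecidableEq C]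

/-- Number of columns of sign `b` choosing row `i`. -/
def cN (ε : C → Bool) (b : Bool) (x : C → Fin 3) (i : Fin 3) : ℕ :=
  (univ.filter fun c => ε c = b ∧ x c = i).card

/-- Signed counts. -/
def rho (ε : C → Bool) (x : C → Fin 3) : Fin 3 → ℤ := fun i => (cN ε true x i : ℤ) - cN ε false x i

/-- The key: signed counts and the set of columns choosing row `i`. -/
def tkey (ε : C → Bool) (i : Fin 3) (x : C → Fin 3) : (Fin 3 → ℤ) × (C → Bool) :=
  (rho ε x, fun c => decide (x c = i))

lemma tkey_eq_iff {ε : C → Bool} {i : Fin 3} {x y : C → Fin 3} :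
    tkey ε i x = tkey ε i y ↔ rho ε x = rho ε y ∧ ∀ c, (x c = i ↔ y c = i) := by
  simp [tkey, funext_iff]

lemma cN_comp (ε : C → Bool) (b : Bool) (x : C → Fin 3) (e : C ≃ C) (he : ∀ c, ε (e c) = ε c)
    (i : Fin 3) : cN ε b (x ∘ e) i = cN ε b x i := by
  unfold cN
  rw [← card_filter_comp_equiv e (fun c => ε c = b ∧ x c = i)]
  simp [he]

lemma rho_comp (ε : C → Bool) (x : C → Fin 3) (e : C ≃ C) (he : ∀ c, ε (e c) = ε c) :
    rho ε (x ∘ e) = rho ε x := by
  ext i; simp [rho, cN_comp ε _ x e he]

lemma sum_cN (ε : C → Bool) (b : Bool) (x : C → Fin 3) :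
    ∑ i, cN ε b x i = (univ.filter fun c => ε c = b).card := by
  rw [card_eq_sum_card_fiberwise (f := x) (t := univ) (by simp)]
  refine sum_congr rfl fun i _ => ?_
  rw [filter_filter]; rfl

lemma cN_add (ε : C → Bool) (b : Bool) (x : C → Fin 3) (i : Fin 3) :
    cN ε b x i + (univ.filter fun c => ε c = b ∧ x c ≠ i).card =
      (univ.filter fun c => ε c = b).card := by
  rw [← card_filter_add_card_filter_not (s := univ.filter fun c => ε c = b) (fun c => x c = i),
    filter_filter, filter_filter]
  rfl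

lemma sum_three {M : Type*} [AddCommMonoid M] (F : Fin 3 → M) {i j l : Fin 3} (hij : i ≠ j)
    (hil : i ≠ l) (hjl : j ≠ l) : ∑ k, F k = F i + F j + F l := by
  have : (univ : Finset (Fin 3)) = {i, j, l} := by
    revert i j l; decide
  rw [this, sum_insert (by simp [hij, hil]), sum_pair hjl, add_assoc]

lemma fin3_ext : ∀ i j a b : Fin 3, i ≠ j → (a = i ↔ b = i) → (a = j ↔ b = j) → a = b := by decide

lemma fin3_third : ∀ i j : Fin 3, i ≠ j → ∃ l : Fin 3, i ≠ l ∧ j ≠ l := by decide

lemma fin3_cases : ∀ i j l k : Fin 3, i ≠ j → i ≠ l → j ≠ l → k = i ∨ k = j ∨ k = l := by decide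

lemma count_class (ε : C → Bool) {i j : Fin 3} (hij : i ≠ j) (x : C → Fin 3) (τ u : ℕ)
    (hu : (u : ℤ) = rho ε x j + τ) :
    ((cls (tkey ε i) x).filter fun y => cN ε false y j = τ).card =
      ((univ.filter fun c => ε c = false ∧ x c ≠ i).card).choose τ *
        ((univ.filter fun c => ε c = true ∧ x c ≠ i).card).choose u := by
  rw [← card_powersetCard, ← card_powersetCard, ← card_product]
  refine card_bij (fun y _ => (univ.filter fun c => ε c = false ∧ y c = j,
    univ.filter fun c => ε c = true ∧ y c = j)) ?_ ?_ ?_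
  · intro y hy
    rw [mem_filter, mem_cls, tkey_eq_iff] at hy
    obtain ⟨⟨h1, h2⟩, h3⟩ := hy
    have h4 := congrFun h1 j
    simp only [mem_product, mem_powersetCard]
    refine ⟨⟨?_, h3⟩, ?_, ?_⟩
    · intro c; simp only [mem_filter, mem_univ, true_and]
      rintro ⟨hc, hc'⟩
      exact ⟨hc, fun h => hij (((h2 c).2 h).symm.trans hc')⟩
    · intro c; simp only [mem_filter, mem_univ, true_and]
      rintro ⟨hc, hc'⟩
      exact ⟨hc, fun h => hij (((h2 c).2 h).symm.trans hc')⟩
    · change cN ε true y j = u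
      rw [← h4] at hu
      simp only [rho] at hu
      omega
  · intro y hy y' hy' h
    rw [mem_filter, mem_cls, tkey_eq_iff] at hy hy'
    simp only [Prod.mk.injEq, Finset.ext_iff, mem_filter, mem_univ, true_and] at h
    ext1 c
    have h1 : y c = i ↔ y' c = i := (hy.1.2 c).trans (hy'.1.2 c).symm
    have h2 : y c = j ↔ y' c = j := by
      have := h.1 c
      have := h.2 c
      cases hc : ε c <;> simp_all
    exact fin3_ext _ _ _ _ hij h1 h2
  · rintro ⟨A, B⟩ hAB
    simp only [mem_product, mem_powersetCard] at hAB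
    obtain ⟨⟨hA, hAc⟩, hB, hBc⟩ := hAB
    obtain ⟨l, hil, hjl⟩ : ∃ l : Fin 3, i ≠ l ∧ j ≠ l := fin3_third _ _ hij
    set y : C → Fin 3 := fun c => if x c = i then i else if c ∈ A ∪ B then j else l with hy
    have hyi : ∀ c, y c = i ↔ x c = i := by
      intro c; simp only [hy]; split_ifs with h1 h2 <;> simp [h1, hij.symm, hil.symm]
    have hyj : ∀ c, y c = j ↔ c ∈ A ∪ B := by
      intro c; simp only [hy]
      split_ifs with h1 h2
      · simp only [hij, false_iff, mem_union, not_or]
        exact ⟨fun h => (mem_filter.1 (hA h)).2.2 h1, fun h => (mem_filter.1 (hB h)).2.2 h1⟩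
      · simp [h2]
      · simp only [hjl.symm, false_iff]; exact h2
    have hAe : (univ.filter fun c => ε c = false ∧ y c = j) = A := by
      ext c
      simp only [mem_filter, mem_univ, true_and, hyj, mem_union]
      constructor
      · rintro ⟨h1, h2 | h2⟩
        · exact h2
        · have := (mem_filter.1 (hB h2)).2.1; simp_all
      · intro h; exact ⟨(mem_filter.1 (hA h)).2.1, Or.inl h⟩
    have hBe : (univ.filter fun c => ε c = true ∧ y c = j) = B := by
      ext c
      simp only [mem_filter, mem_univ, true_and, hyj, mem_union]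
      constructor
      · rintro ⟨h1, h2 | h2⟩
        · have := (mem_filter.1 (hA h2)).2.1; simp_all
        · exact h2
      · intro h; exact ⟨(mem_filter.1 (hB h)).2.1, Or.inr h⟩
    have hcj0 : cN ε false y j = τ := by unfold cN; rw [hAe, hAc]
    have hcj1 : cN ε true y j = u := by unfold cN; rw [hBe, hBc]
    have hci : ∀ b, cN ε b y i = cN ε b x i := by intro b; simp [cN, hyi]
    refine ⟨y, ?_, by rw [hAe, hBe]⟩
    rw [mem_filter, mem_cls, tkey_eq_iff]
    refine ⟨⟨?_, hyi⟩, hcj0⟩
    have e1 := (sum_cN ε true y).trans (sum_cN ε true x).symm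
    have e2 := (sum_cN ε false y).trans (sum_cN ε false x).symm
    rw [sum_three _ hij hil hjl, sum_three _ hij hil hjl] at e1 e2
    have := hci true
    have := hci false
    simp only [rho] at hu
    ext k
    have hk : k = i ∨ k = j ∨ k = l := fin3_cases _ _ _ _ hij hil hjl
    simp only [rho]
    rcases hk with rfl | rfl | rfl <;> omega

lemma domination (ε : C → Bool) {i j : Fin 3} (hij : i ≠ j) (x x' : C → Fin 3)
    (hρ : rho ε x = rho ε x') (hq : cN ε false x i ≤ cN ε false x' i) (G : (C → Fin 3) → ℝ)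
    (hG : ∀ y y', rho ε y = rho ε x → rho ε y' = rho ε x → cN ε false y j ≤ cN ε false y' j →
      G y ≤ G y') : avg (tkey ε i) G x' ≤ avg (tkey ε i) G x := by
  rw [avg_apply, avg_apply, div_le_div_iff₀ (card_cls_pos _ _) (card_cls_pos _ _), mul_comm,
    mul_comm (∑ y ∈ cls (tkey ε i) x, G y)]
  have hmem : ∀ y ∈ cls (tkey ε i) x ∪ cls (tkey ε i) x', rho ε y = rho ε x := by
    intro y hy
    rcases mem_union.1 hy with hy | hy
    · exact (tkey_eq_iff.1 (mem_cls.1 hy)).1
    · exact (tkey_eq_iff.1 (mem_cls.1 hy)).1.trans hρ.symm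
  refine mlr _ _ (fun y => cN ε false y j) G
    (fun y hy y' hy' h => hG y y' (hmem y hy) (hmem y' hy') h) ?_
  intro τ τ' hτ
  by_cases h0 : ((cls (tkey ε i) x).filter fun y => cN ε false y j = τ).card = 0
  · convert Nat.zero_le _
    rw [Nat.mul_eq_zero]; left; convert h0
  obtain ⟨y, hy⟩ := card_ne_zero.1 h0
  rw [mem_filter] at hy
  have h1 := congrFun (hmem y (mem_union_left _ hy.1)) j
  have hu : (cN ε true y j : ℤ) = rho ε x j + τ := by
    rw [← h1, ← hy.2]; simp [rho]
  have hu' : ((cN ε true y j + (τ' - τ) : ℕ) : ℤ) = rho ε x j + τ' := by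
    push_cast [hτ.le]; linarith
  have c1 := count_class ε hij x τ _ hu
  have c2 := count_class ε hij x τ' _ hu'
  have c3 := count_class ε hij x' τ _ (hρ ▸ hu)
  have c4 := count_class ε hij x' τ' _ (hρ ▸ hu')
  have a1 := cN_add ε false x i
  have a2 := cN_add ε false x' i
  have a3 := cN_add ε true x i
  have a4 := cN_add ε true x' i
  have a5 := congrFun hρ i
  simp only [rho] at a5
  have t1 := choose_tp2 (a := (univ.filter fun c => ε c = false ∧ x c ≠ i).card)
    (a' := (univ.filter fun c => ε c = false ∧ x' c ≠ i).card) (by omega) hτ.le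
  have t2 := choose_tp2 (a := (univ.filter fun c => ε c = true ∧ x c ≠ i).card)
    (a' := (univ.filter fun c => ε c = true ∧ x' c ≠ i).card) (by omega)
    (Nat.le_add_right (cN ε true y j) (τ' - τ))
  have t3 := Nat.mul_le_mul t1 t2
  have goal : ((cls (tkey ε i) x).filter fun y => cN ε false y j = τ).card *
      ((cls (tkey ε i) x').filter fun y => cN ε false y j = τ').card ≤
      ((cls (tkey ε i) x).filter fun y => cN ε false y j = τ').card *
      ((cls (tkey ε i) x').filter fun y => cN ε false y j = τ).card := by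
    rw [c1, c2, c3, c4]
    calc _ = _ := by ring
      _ ≤ _ := t3
      _ = _ := by ring
  convert goal

lemma inv_perm_of_inv_swap {β : Type*} (ε : C → Bool) (φ : (C → β) → ℝ)
    (h : ∀ c c', ε c = ε c' → ∀ x, φ (sw c c' x) = φ x) (e : Equiv.Perm C) :
    (∀ c, ε (e c) = ε c) → ∀ x, φ (x ∘ e) = φ x := by
  induction hn : e.support.card using Nat.strong_induction_on generalizing e with
  | _ n ih =>
    intro he x
    by_cases h1 : ∀ c, e c = c
    · have : x ∘ e = x := by ext c; simp [h1]
      rw [this]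
    · push Not at h1
      obtain ⟨c, hc⟩ := h1
      have hlt := Equiv.Perm.card_support_swap_mul hc
      have h2 := ih _ (hn ▸ hlt) (Equiv.swap c (e c) * e) rfl (by
        intro d
        rw [Equiv.Perm.mul_apply, Equiv.swap_apply_def]
        split_ifs with h3 h4
        · rw [he, ← h3, he]
        · rw [← he c, ← h4, he]
        · exact he d) (sw c (e c) x)
      have h3 : sw c (e c) x ∘ (Equiv.swap c (e c) * e) = x ∘ e := by
        ext d; simp [sw_apply]
      rw [h3, h c (e c) (he c).symm] at h2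
      exact h2

theorem three (ε : C → Bool) (f : (C → Fin 3) → ℝ) (θ : ℝ) (hθ : 2 < θ)
    (h : ∀ x, ∑ i, avg (tkey ε i) f x = θ * f x) (x x' : C → Fin 3) (hρ : rho ε x = rho ε x') :
    f x = f x' := by
  set φ : Fin 3 → (C → Fin 3) → ℝ := fun i => avg (tkey ε i) f with hφ
  have hφinv : ∀ i y y', tkey ε i y = tkey ε i y' → φ i y = φ i y' := fun i y y' h => avg_inv f h
  have heq : ∀ i x, (θ - 1) * φ i x = avg (tkey ε i) (∑ j ∈ univ.erase i, φ j) x := by
    intro i x
    have h1 : θ • f = φ i + ∑ j ∈ univ.erase i, φ j := by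
      rw [add_sum_erase _ _ (mem_univ i)]
      ext y; simp only [Pi.smul_apply, smul_eq_mul, Finset.sum_apply, ← h y, hφ]
    have h2 := congrFun (congrArg (avg (tkey ε i)) h1) x
    rw [map_smul, map_add, Pi.add_apply, avg_of_inv (hφinv i)] at h2
    simp only [Pi.smul_apply, smul_eq_mul] at h2
    change θ * φ i x = _ at h2
    linarith
  -- Step 1: invariance under sign-preserving transpositions
  have step1 : ∀ i c c', ε c = ε c' → ∀ x, φ i (sw c c' x) = φ i x := by
    intro i₁ c c' hε
    have hsw : ∀ d, ε (Equiv.swap c c' d) = ε d := by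
      intro d; rw [Equiv.swap_apply_def]; split_ifs with h1 h2
      · rw [h1, hε]
      · rw [h2, hε]
      · rfl
    have hrho : ∀ y, rho ε (sw c c' y) = rho ε y := fun y => rho_comp ε y (Equiv.swap c c') hsw
    set ψ : Fin 3 → (C → Fin 3) → ℝ := fun i => φ i - φ i ∘ sw c c' with hψ
    have hanti : ∀ i y, ψ i (sw c c' y) = -ψ i y := by intro i y; simp [hψ, sw_sw]
    have hzero : ∀ i y, (y c = i ↔ y c' = i) → ψ i y = 0 := by
      intro i y hy
      have : φ i (sw c c' y) = φ i y := by
        refine hφinv i _ _ (tkey_eq_iff.2 ⟨hrho y, fun d => ?_⟩)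
        rw [sw_apply, Equiv.swap_apply_def]
        split_ifs with h1 h2
        · rw [h1, hy]
        · rw [h2, hy]
        · rfl
      simp [hψ, this]
    have heig : ∀ i y, (θ - 1) * ψ i y = avg (tkey ε i) (∑ j ∈ univ.erase i, ψ j) y := by
      intro i y
      have h1 := heq i y
      have h2 := heq i (sw c c' y)
      rw [avg_comp_equiv (sw c c') _ (tkey ε i) y (by
        intro z
        rw [tkey_eq_iff, tkey_eq_iff, hrho, hrho]
        refine and_congr Iff.rfl ⟨fun h d => ?_, fun h d => h _⟩
        simpa [sw_apply] using h (Equiv.swap c c' d))] at h2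
      have h3 : (∑ j ∈ univ.erase i, ψ j) =
          (∑ j ∈ univ.erase i, φ j) - (∑ j ∈ univ.erase i, φ j) ∘ sw c c' := by
        ext z; simp only [hψ, Finset.sum_apply, Pi.sub_apply, Function.comp_apply, sum_sub_distrib]
      rw [h3, map_sub, Pi.sub_apply, ← h1, ← h2]
      simp only [hψ, Pi.sub_apply, Function.comp_apply]; ring
    obtain ⟨⟨i, y₀⟩, -, hmax⟩ := exists_max_image (univ : Finset (Fin 3 × (C → Fin 3)))
      (fun p => ψ p.1 p.2) univ_nonempty
    have hle : ∀ j y, ψ j y ≤ ψ i y₀ := fun j y => hmax (j, y) (mem_univ _)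
    have hM : ψ i y₀ ≤ 0 := by
      by_contra hM
      push Not at hM
      have hxor : ¬(y₀ c = i ↔ y₀ c' = i) := fun h => by
        rw [hzero _ _ h] at hM; exact lt_irrefl _ hM
      have h1 : avg (tkey ε i) (∑ j ∈ univ.erase i, ψ j) y₀ ≤ ψ i y₀ := by
        refine avg_le fun y hy => ?_
        have h2 := (tkey_eq_iff.1 hy).2
        rw [← h2 c, ← h2 c'] at hxor
        rw [Finset.sum_apply]
        by_cases h3 : y c = i
        · have h4 : y c' ≠ i := fun h => hxor ⟨fun _ => h, fun _ => h3⟩
          rw [sum_eq_single (y c')]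
          · exact hle _ _
          · intro j hj hj'
            refine hzero _ _ ⟨fun h => ?_, fun h => (hj' h.symm).elim⟩
            exact ((mem_erase.1 hj).1 (h.symm.trans h3)).elim
          · intro h5; exact (h5 (mem_erase.2 ⟨h4, mem_univ _⟩)).elim
        · have h4 : y c' = i := by
            by_contra h; exact hxor ⟨fun h' => (h3 h').elim, fun h' => (h h').elim⟩
          rw [sum_eq_single (y c)]
          · exact hle _ _
          · intro j hj hj'
            refine hzero _ _ ⟨fun h => (hj' h.symm).elim, fun h => ?_⟩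
            exact ((mem_erase.1 hj).1 (h.symm.trans h4)).elim
          · intro h5; exact (h5 (mem_erase.2 ⟨h3, mem_univ _⟩)).elim
      rw [← heig] at h1
      nlinarith
    intro y
    have h1 := hle i₁ y
    have h2 := hle i₁ (sw c c' y)
    rw [hanti] at h2
    have h3 : ψ i₁ y = 0 := by linarith
    simp only [hψ, Pi.sub_apply, Function.comp_apply] at h3
    linarith
  -- Step 2: dependence on the count only
  have step2 : ∀ i y y', rho ε y = rho ε y' → cN ε false y i = cN ε false y' i →
      φ i y = φ i y' := by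
    intro i y y' h1 h2
    have h3 : cN ε true y i = cN ε true y' i := by
      have := congrFun h1 i
      simp only [rho] at this; omega
    obtain ⟨e, he⟩ := exists_perm_of_fiber_card (fun c => (ε c, decide (y c = i)))
      (fun c => (ε c, decide (y' c = i))) (by
        rintro ⟨b, b'⟩
        have h4 : cN ε b y i = cN ε b y' i := by cases b <;> assumption
        have a1 := cN_add ε b y i
        have a2 := cN_add ε b y' i
        cases b'
        · have h5 : (univ.filter fun c => ε c = b ∧ y c ≠ i).card =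
            (univ.filter fun c => ε c = b ∧ y' c ≠ i).card := by omega
          convert h5 using 3 <;> simp
        · unfold cN at h4
          convert h4 using 3 <;> simp)
    simp only [Prod.mk.injEq, decide_eq_decide] at he
    rw [← inv_perm_of_inv_swap ε (φ i) (step1 i) e (fun c => (he c).1) y']
    refine hφinv i _ _ (tkey_eq_iff.2 ⟨?_, fun c => (he c).2.symm⟩)
    rw [rho_comp ε y' e (fun c => (he c).1), h1]
  -- Step 3: Lipschitz contraction in the count
  set t : Fin 3 → (C → Fin 3) → ℝ := fun i y => (cN ε false y i : ℝ) with ht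
  set F : Fin 3 × (C → Fin 3) × (C → Fin 3) → ℝ := fun p =>
    if rho ε p.2.1 = rho ε p.2.2 ∧ t p.1 p.2.1 < t p.1 p.2.2 then
      |φ p.1 p.2.2 - φ p.1 p.2.1| / (t p.1 p.2.2 - t p.1 p.2.1) else 0 with hF
  obtain ⟨⟨i, y₀, y₁⟩, -, hmax⟩ := exists_max_image univ F univ_nonempty
  set B := F (i, y₀, y₁) with hB
  have hLip : ∀ j y y', rho ε y = rho ε y' → t j y ≤ t j y' →
      |φ j y' - φ j y| ≤ B * (t j y' - t j y) := by
    intro j y y' h1 h2
    rcases h2.eq_or_lt with h2 | h2
    · rw [step2 j y y' h1 (by simpa [ht] using h2), h2]; simp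
    · have := hmax (j, y, y') (mem_univ _)
      simp only [hF, h1, h2, and_self, if_true] at this
      rwa [div_le_iff₀ (by linarith)] at this
  have hB0 : B ≤ 0 := by
    by_cases hc : rho ε y₀ = rho ε y₁ ∧ t i y₀ < t i y₁
    swap
    · simp only [hB, hF, hc, if_false, le_refl]
    have hBeq : B = |φ i y₁ - φ i y₀| / (t i y₁ - t i y₀) := by simp only [hB, hF, hc, and_self, if_true]
    have hd : 0 < t i y₁ - t i y₀ := by linarith [hc.2]
    have hsum : ∀ y z, tkey ε i z = tkey ε i y → ∑ j ∈ univ.erase i, t j z =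
        ((univ.filter fun c => ε c = false).card : ℝ) - t i y := by
      intro y z hz
      have h1 := sum_cN ε false z
      rw [← add_sum_erase _ _ (mem_univ i)] at h1
      have h2 : cN ε false z i = cN ε false y i := by
        simp only [cN, (tkey_eq_iff.1 hz).2]
      rw [← h1, h2]
      simp [ht]
    have hmain : ∀ s : ℝ, |s| = 1 → s * ((θ - 1) * (φ i y₁ - φ i y₀)) ≤ B * (t i y₁ - t i y₀) := by
      intro s hs
      have h1 : ∀ j ∈ univ.erase i, avg (tkey ε i) (B • t j + s • φ j) y₁ ≤
          avg (tkey ε i) (B • t j + s • φ j) y₀ := by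
        intro j hj
        refine domination ε (mem_erase.1 hj).1.symm y₀ y₁ hc.1 (by
          have := hc.2.le; simpa [ht] using this) _ ?_
        intro y y' hy hy' hyy
        have h2 := hLip j y y' (hy.trans hy'.symm) (by simpa [ht] using hyy)
        have h3 : |s * (φ j y' - φ j y)| ≤ B * (t j y' - t j y) := by rwa [abs_mul, hs, one_mul]
        have h4 := (abs_le.1 h3).1
        simp only [Pi.add_apply, Pi.smul_apply, smul_eq_mul]
        linarith
      have h2 := sum_le_sum h1
      have h3 : ∀ y, ∑ j ∈ univ.erase i, avg (tkey ε i) (B • t j + s • φ j) y =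
          B * (((univ.filter fun c => ε c = false).card : ℝ) - t i y) + s * ((θ - 1) * φ i y) := by
        intro y
        rw [← Finset.sum_apply, ← map_sum, sum_add_distrib, ← smul_sum, ← smul_sum, map_add, map_smul,
          map_smul, heq]
        simp only [Pi.add_apply, Pi.smul_apply, smul_eq_mul]
        rw [avg_const_on (fun z hz => by rw [Finset.sum_apply]; exact hsum y z hz)]
      rw [h3, h3] at h2
      linarith
    have h1 := hmain 1 (by simp)
    have h2 := hmain (-1) (by simp)
    have h3 : (θ - 1) * |φ i y₁ - φ i y₀| ≤ B * (t i y₁ - t i y₀) := by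
      rcases abs_cases (φ i y₁ - φ i y₀) with h | h <;> rw [h.1] <;> linarith
    have h4 : |φ i y₁ - φ i y₀| = B * (t i y₁ - t i y₀) := by rw [hBeq]; field_simp
    rw [h4] at h3
    by_contra hB0
    push Not at hB0
    have := mul_pos hB0 hd
    nlinarith
  have hconst : ∀ j, φ j x = φ j x' := by
    intro j
    rcases le_total (t j x) (t j x') with h1 | h1
    · have h2 := hLip j x x' hρ h1
      have h3 : B * (t j x' - t j x) ≤ 0 := mul_nonpos_of_nonpos_of_nonneg hB0 (by linarith)
      have := abs_nonpos_iff.1 (h2.trans h3)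
      linarith
    · have h2 := hLip j x' x hρ.symm h1
      have h3 : B * (t j x - t j x') ≤ 0 := mul_nonpos_of_nonpos_of_nonneg hB0 (by linarith)
      have := abs_nonpos_iff.1 (h2.trans h3)
      linarith
  have h1 := h x
  have h2 := h x'
  have h3 : ∑ i, avg (tkey ε i) f x = ∑ i, avg (tkey ε i) f x' :=
    sum_congr rfl fun j _ => hconst j
  have h4 : θ * f x = θ * f x' := by linarith
  exact mul_left_cancel₀ (by linarith) h4

end Crest.Agent.R299
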